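import Vale.Agent.P080.Flat.Chain

/-!
Uniform affine approximation on small balls (P080).

At a given target radius `r`, pigeonhole the monotone slope over boundedly many geometric scales
below `r` to find one where it is almost constant; there the function is flat. The affine function
found there is carried back up to radius `r` by boundedly many doublings, each of which costs one
second difference.
-/

namespace Vale.Agent.P080.Flat

open Metric Set
open scoped RealInnerProductSpace

set_option linter.unusedSectionVars false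

variable {E : Type*} [NormedAddCommGroup E] [InnerProductSpace ℝ E] [FiniteDimensional ℝ E]

theorem sd_neg_fun (u : E → ℝ) (x d : E) : sd (fun y => -u y) x d = -sd u x d := by
  simp only [sd]
  ring

/-- A doubling of the radius costs half of the bound on second differences. -/
theorem affine_double {u : E → ℝ} {p : E} {δ e t : ℝ} {k : ℕ} (hδ : 0 ≤ δ) (ht : 0 < t)
    (hsd : ∀ w, 2 * ‖w‖ ≤ t * 2 ^ k → |sd u w w| ≤ δ * ‖w‖)
    (h0 : ∀ z, ‖z‖ ≤ t → |u z - u 0 - ⟪p, z⟫| ≤ e * t) :
    ∀ z, ‖z‖ ≤ t * 2 ^ k → |u z - u 0 - ⟪p, z⟫| ≤ (e + k * δ / 2) * (t * 2 ^ k) := by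
  induction k with
  | zero => simpa using h0
  | succ n ih =>
    intro z hz
    have h2 : t * 2 ^ (n + 1) = 2 * (t * 2 ^ n) := by ring
    have hpos : 0 < t * 2 ^ n := by positivity
    have hih := ih (fun w hw => hsd w (by linarith))
    set w := (1 / 2 : ℝ) • z with hw
    have hnw : 2 * ‖w‖ = ‖z‖ := by
      rw [hw, norm_smul, Real.norm_of_nonneg (by norm_num)]; ring
    have hwz : w + w = z := by rw [hw]; module
    have h1 := abs_le.1 (hih w (by linarith))
    have h3 := abs_le.1 (hsd w (by linarith))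
    have h4 : δ * ‖w‖ ≤ δ * (t * 2 ^ n) := mul_le_mul_of_nonneg_left (by linarith) hδ
    have h5 : ⟪p, z⟫ = 2 * ⟪p, w⟫ := by rw [← hwz, inner_add_right]; ring
    simp only [sd, hwz, sub_self] at h3
    rw [abs_le, h2, h5]
    push_cast
    constructor <;> linarith

/-- A long chain of disjoint windows contains one on which a monotone bounded quantity is almost
constant. -/
theorem exists_flat_window {u : E → ℝ} {P η r : ℝ} {J N : ℕ} (hu : Good u 1) (hP : 2 ≤ P)
    (hJ : 4 * P ^ 2 ≤ 2 ^ J) (hN : 1 < N * η) (hr : 0 < r) (hr1 : 4 * P * r ≤ 1) :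
    ∃ j < N, slope u (4 * P * (r / 2 ^ (j * J))) ≤ slope u (r / 2 ^ (j * J) / P) + η := by
  by_contra hcon
  push Not at hcon
  have hP0 : 0 < P := by linarith
  have hle : ∀ j : ℕ, r / 2 ^ (j * J) ≤ r := fun j => div_le_self hr.le (one_le_pow₀ (by norm_num))
  have hdom : ∀ j : ℕ, 4 * P * (r / 2 ^ (j * J)) ≤ 1 := fun j =>
    (mul_le_mul_of_nonneg_left (hle j) (by linarith)).trans hr1
  have hstep : ∀ n ≤ N, slope u (4 * P * (r / 2 ^ (n * J))) + n * η ≤ slope u (4 * P * r) := by
    intro n hn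
    induction n with
    | zero => simp
    | succ n ih =>
      have h1 := ih (by omega)
      have h2 := hcon n (by omega)
      have hpos : 0 < r / 2 ^ ((n + 1) * J) := by positivity
      have hwin : 4 * P * (r / 2 ^ ((n + 1) * J)) ≤ r / 2 ^ (n * J) / P := by
        rw [add_mul, one_mul, pow_add, ← div_div, le_div_iff₀ hP0, mul_div_assoc', div_mul_eq_mul_div,
          div_le_iff₀ (by positivity)]
        have h0 : 0 ≤ r / 2 ^ (n * J) := by positivity
        nlinarith
      have hdom' : r / 2 ^ (n * J) / P ≤ 1 := by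
        refine le_trans (div_le_self (by positivity) (by linarith)) ?_
        have h0 : 0 ≤ r / 2 ^ (n * J) := by positivity
        nlinarith [hdom n]
      have h3 := slope_mono hu (by positivity) hwin hdom'
      push_cast
      linarith
  have h4 := hstep N le_rfl
  have h5 := (slope_mem_Icc hu (by positivity) hr1).2
  have h6 := (slope_mem_Icc hu (ρ := 4 * P * (r / 2 ^ (N * J))) (by positivity) (hdom N)).1
  linarith

/-- Second differences are small at all small scales around every point of the half ball. -/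
theorem sd_abs_le {θ δ : ℝ} {F : Type} [NormedAddCommGroup F] [InnerProductSpace ℝ F]
    [FiniteDimensional ℝ F]
    (hsd : ∀ v : F → ℝ, Good v 1 → ∀ h : F, ‖h‖ ≤ θ → sd v 0 h ≤ δ * ‖h‖)
    {u : F → ℝ} (hu : Good u 1) {x w : F} (hx : ‖x‖ ≤ 1 / 2) (hw : 2 * ‖w‖ ≤ θ) :
    |sd u x w| ≤ δ * ‖w‖ := by
  have key : ∀ v : F → ℝ, Good v 1 → sd v x w ≤ δ * ‖w‖ := by
    intro v hv
    have hg := hv.zoom (c := x) (σ := 1 / 2) (Q' := 1) (by norm_num) (by linarith)
    have hn : ‖(2 : ℝ) • w‖ = 2 * ‖w‖ := by rw [norm_smul, Real.norm_of_nonneg (by norm_num)]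
    have h := hsd _ hg ((2 : ℝ) • w) (by linarith)
    rw [sd_zoom, smul_zero, add_zero, smul_smul, hn] at h
    norm_num at h
    linarith
  have h1 := key u hu
  have h2 := key _ hu.neg
  rw [sd_neg_fun] at h2
  rw [abs_le]
  constructor <;> linarith

/-- Every small ball around the origin carries an affine approximation. -/
theorem affine_approx {ε : ℝ} (hε : 0 < ε) :
    ∃ θ : ℝ, 0 < θ ∧ θ ≤ 1 / 4 ∧ ∀ {F : Type} [NormedAddCommGroup F] [InnerProductSpace ℝ F]
      [FiniteDimensional ℝ F] (u : F → ℝ), Good u 1 →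
      ∀ r : ℝ, 0 < r → r ≤ θ → ∃ p : F, ∀ z : F, ‖z‖ ≤ r → |u z - u 0 - ⟪p, z⟫| ≤ ε * r := by
  -- the radius of the flat ball relative to the window
  obtain ⟨m, hm⟩ := pow_unbounded_of_one_lt (16 / ε) (one_lt_two (α := ℝ))
  set a : ℝ := 1 / 2 ^ m with ha
  have ha0 : 0 < a := by positivity
  have ha1 : a ≤ 1 := by
    rw [ha, div_le_one (by positivity)]
    exact one_le_pow₀ (by norm_num)
  have haε : a ≤ ε / 16 := by
    rw [div_lt_iff₀ hε] at hm
    rw [ha, div_le_iff₀ (by positivity)]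
    linarith
  -- the slope budget
  set q : ℝ := min (min (a * ε / 24) ((ε / 64) ^ 2)) 1 with hq
  have hq0 : 0 < q := lt_min (lt_min (by positivity) (by positivity)) one_pos
  have hq1 : q ≤ a * ε / 24 := (min_le_left _ _).trans (min_le_left _ _)
  have hq2 : q ≤ (ε / 64) ^ 2 := (min_le_left _ _).trans (min_le_right _ _)
  have hq3 : q ≤ 1 := min_le_right _ _
  set η : ℝ := q / 2 with hη
  set P : ℝ := max 2 (8 / q) with hP
  have hP2 : 2 ≤ P := le_max_left _ _
  have hP8 : 4 / P ≤ q / 2 := by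
    have h8 : 8 / q ≤ P := le_max_right _ _
    rw [div_le_iff₀ hq0] at h8
    rw [div_le_iff₀ (by linarith)]
    linarith
  obtain ⟨J, hJ⟩ := pow_unbounded_of_one_lt (4 * P ^ 2) (one_lt_two (α := ℝ))
  obtain ⟨N, hN⟩ := exists_nat_gt (1 / η)
  rw [div_lt_iff₀ (by positivity)] at hN
  -- the second differences
  set δ : ℝ := ε / (N * J + m + 1) with hδ
  have hδ0 : 0 < δ := by positivity
  obtain ⟨θ₁, hθ₁, hθ₁', hsd⟩ := sd_vanish hδ0
  refine ⟨min θ₁ (1 / (4 * P)), by positivity, (min_le_left _ _).trans hθ₁', ?_⟩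
  intro F _ _ _ u hu r hr hrθ
  have hrθ₁ : r ≤ θ₁ := hrθ.trans (min_le_left _ _)
  have hrP : 4 * P * r ≤ 1 := by
    have h := hrθ.trans (min_le_right _ _)
    rw [le_div_iff₀ (by positivity)] at h
    linarith
  obtain ⟨j, hj, hwin⟩ := exists_flat_window hu hP2 hJ.le hN hr hrP
  set ρ : ℝ := r / 2 ^ (j * J) with hρ
  have hρ0 : 0 < ρ := by positivity
  have hρr : ρ ≤ r := div_le_self hr.le (one_le_pow₀ (by norm_num))
  have hρP : 4 * P * ρ ≤ 1 := (mul_le_mul_of_nonneg_left hρr (by linarith)).trans hrP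
  obtain ⟨p, hp⟩ := flat_point hu hρ0 hP2 (by positivity) (by linarith) hρP hwin
  refine ⟨p, ?_⟩
  -- flatness on the base ball
  have hqq : η + 4 / P ≤ q := by linarith
  have hbase : ∀ z, ‖z‖ ≤ ρ * a → |u z - u 0 - ⟪p, z⟫| ≤ ε / 2 * (ρ * a) := by
    intro z hz
    refine (hp z (hz.trans (mul_le_of_le_one_right hρ0.le ha1))).trans ?_
    have hs : Real.sqrt (η + 4 / P) ≤ ε / 64 :=
      (Real.sqrt_le_sqrt (hqq.trans hq2)).trans_eq (Real.sqrt_sq (by positivity))
    have e1 : 3 * ρ * (η + 4 / P) ≤ ε / 8 * (ρ * a) :=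
      (mul_le_mul_of_nonneg_left (hqq.trans hq1) (by positivity)).trans (le_of_eq (by ring))
    have e2 : 2 * ‖z‖ ^ 2 / ρ ≤ ε / 8 * (ρ * a) := by
      rw [div_le_iff₀ hρ0]
      nlinarith [norm_nonneg z, mul_le_mul hz hz (norm_nonneg z) (by positivity),
        mul_le_mul_of_nonneg_left haε (by positivity : 0 ≤ 2 * a * ρ ^ 2)]
    have e3 : 8 * ‖z‖ * Real.sqrt (η + 4 / P) ≤ ε / 8 * (ρ * a) :=
      (mul_le_mul (mul_le_mul_of_nonneg_left hz (by norm_num)) hs (Real.sqrt_nonneg _)
        (by positivity)).trans (le_of_eq (by ring))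
    have : 0 ≤ ε * (ρ * a) := by positivity
    linarith
  have htr : ρ * a * 2 ^ (j * J + m) = r := by
    rw [hρ, ha, pow_add]; field_simp
  have hdbl := affine_double (u := u) (p := p) (k := j * J + m) hδ0.le (mul_pos hρ0 ha0)
    (fun w hw => sd_abs_le (fun v hv => hsd v hv) hu (by linarith) (by linarith)) hbase
  intro z hz
  refine (hdbl z (by rw [htr]; exact hz)).trans ?_
  rw [htr]
  gcongr
  have hk : (((j * J + m : ℕ) : ℝ)) ≤ N * J + m + 1 := by
    have : j * J ≤ N * J := Nat.mul_le_mul_right J hj.le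
    push_cast
    have : ((j * J : ℕ) : ℝ) ≤ ((N * J : ℕ) : ℝ) := by exact_mod_cast this
    push_cast at this
    linarith
  have : ((j * J + m : ℕ) : ℝ) * δ ≤ ε := by
    refine (mul_le_mul_of_nonneg_right hk hδ0.le).trans (le_of_eq ?_)
    rw [hδ]; field_simp
  linarith

end Vale.Agent.P080.Flat
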