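import Vale.Agent.P080.Flat.Prox

/-!
Rescaling of the cone class and the slope function on balls around the origin (P080).
-/

namespace Vale.Agent.P080.Flat

open Metric Set
open scoped RealInnerProductSpace

set_option linter.unusedSectionVars false

variable {E : Type*} [NormedAddCommGroup E] [InnerProductSpace ℝ E]

/-- The slope of the upward cone over the ball of radius `ρ` around the origin. -/
noncomputable def slope (u : E → ℝ) (ρ : ℝ) : ℝ :=
  (sSup (u '' closedBall 0 ρ) - u 0) / ρ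

/-- Blow up at `c` by the factor `σ`. -/
noncomputable def zoom (u : E → ℝ) (c : E) (σ : ℝ) : E → ℝ :=
  fun z => u (c + σ • z) / σ

theorem zoom_mem {c z : E} {σ Q Q' : ℝ} (hσ : 0 < σ) (hz : ‖z‖ ≤ Q') (hQ : ‖c‖ + σ * Q' ≤ Q) :
    ‖c + σ • z‖ ≤ Q := by
  have := norm_add_le c (σ • z)
  rw [norm_smul, Real.norm_of_nonneg hσ.le] at this
  linarith [mul_le_mul_of_nonneg_left hz hσ.le]

theorem LipOne.zoom {u : E → ℝ} {c : E} {σ Q Q' : ℝ} (hu : LipOne u Q) (hσ : 0 < σ)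
    (hQ : ‖c‖ + σ * Q' ≤ Q) : LipOne (zoom u c σ) Q' := by
  intro x y hx hy
  have h := hu _ _ (zoom_mem hσ hx hQ) (zoom_mem hσ hy hQ)
  rw [show c + σ • x - (c + σ • y) = σ • (x - y) by module, norm_smul,
    Real.norm_of_nonneg hσ.le] at h
  unfold Flat.zoom
  rw [← sub_div, div_le_iff₀ hσ]
  linarith

theorem UpCone.zoom {u : E → ℝ} {c : E} {σ Q Q' : ℝ} (hu : UpCone u Q) (hσ : 0 < σ)
    (hQ : ‖c‖ + σ * Q' ≤ Q) : UpCone (zoom u c σ) Q' := by
  intro x b hb hx
  have hball : ‖c + σ • x‖ + σ * b ≤ Q := by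
    have := norm_add_le c (σ • x)
    rw [norm_smul, Real.norm_of_nonneg hσ.le] at this
    linarith [mul_le_mul_of_nonneg_left hx hσ.le]
  obtain ⟨z, hz, hxz, hzy⟩ := hu (c + σ • x) (σ * b) (by positivity) hball
  refine ⟨σ⁻¹ • (z - c), ?_, ?_, fun y hy => ?_⟩
  · rw [show σ⁻¹ • (z - c) - x = σ⁻¹ • (z - (c + σ • x)) by
      rw [smul_sub, smul_sub, smul_add, inv_smul_smul₀ hσ.ne']; module, norm_smul,
      Real.norm_of_nonneg (by positivity), inv_mul_le_iff₀ hσ]
    exact hz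
  · unfold Flat.zoom
    rw [smul_inv_smul₀ hσ.ne', add_sub_cancel]
    gcongr
  · have he : c + σ • y - (c + σ • x) = σ • (y - x) := by module
    obtain ⟨h1, h2⟩ := hzy (c + σ • y) (by
      rw [he, norm_smul, Real.norm_of_nonneg hσ.le]; exact mul_le_mul_of_nonneg_left hy hσ.le)
    rw [he, norm_smul, Real.norm_of_nonneg hσ.le] at h2
    unfold Flat.zoom
    rw [smul_inv_smul₀ hσ.ne', add_sub_cancel]
    refine ⟨by gcongr, ?_⟩
    rw [← sub_div, ← sub_div, mul_div_assoc', mul_div_assoc', div_le_div_iff_of_pos_right hσ]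
    have h3 : σ * (b * (u (c + σ • y) - u (c + σ • x)))
        ≤ σ * (‖y - x‖ * (u z - u (c + σ • x))) := by linarith
    exact le_of_mul_le_mul_left h3 hσ

theorem Good.zoom {u : E → ℝ} {c : E} {σ Q Q' : ℝ} (hu : Good u Q) (hσ : 0 < σ)
    (hQ : ‖c‖ + σ * Q' ≤ Q) : Good (zoom u c σ) Q' := by
  refine ⟨hu.lip.zoom hσ hQ, hu.up.zoom hσ hQ, ?_⟩
  have h := hu.down.zoom hσ hQ
  convert h using 2 with z
  simp [Flat.zoom, neg_div]

theorem sd_zoom (u : E → ℝ) (c x d : E) (σ : ℝ) :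
    sd (zoom u c σ) x d = sd u (c + σ • x) (σ • d) / σ := by
  simp only [sd, zoom, smul_add, smul_sub, add_assoc, add_sub_assoc]
  ring

end Vale.Agent.P080.Flat
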