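import Vale.Agent.P080.Cones
import Vale.Agent.P080.Flat.Affine

/-!
From viscosity infinity-harmonic functions to the normalised cone class, and entire functions
of linear growth (P080).
-/

namespace Vale.Agent.P080.Flat

open Metric Set
open scoped RealInnerProductSpace

set_option linter.unusedSectionVars false

variable {E : Type*} [NormedAddCommGroup E] [InnerProductSpace ℝ E] [FiniteDimensional ℝ E]

/-- Comparison with cones from above for a normalised subsolution. -/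
theorem upCone_of_sub {u : E → ℝ} {s : Set E} (hcont : ContinuousOn u s)
    (hsub : ∀ z ∈ s, ∀ φ : E → ℝ, ContDiff ℝ 2 φ → IsLocalMax (fun y => u y - φ y) z →
      0 ≤ fderiv ℝ (fderiv ℝ φ) z (gradient φ z) (gradient φ z))
    {c : E} {σ K : ℝ} (hσ : 0 < σ) (hK : 0 < K) (hball : closedBall c σ ⊆ s) :
    UpCone (fun z => u (c + σ • z) / K) 1 := by
  intro x b hb hx
  have hnorm : ∀ y : E, ‖σ • y‖ = σ * ‖y‖ := fun y => by
    rw [norm_smul, Real.norm_of_nonneg hσ.le]
  have hmem : ∀ y : E, ‖y - x‖ ≤ b → c + σ • y ∈ closedBall c σ := fun y hy => by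
    rw [mem_closedBall, dist_eq_norm, add_sub_cancel_left, hnorm]
    have h1 := norm_add_le (y - x) x
    rw [sub_add_cancel] at h1
    exact mul_le_of_le_one_right hσ.le (by linarith)
  have hc : ContinuousOn (fun y => u (c + σ • y)) (closedBall x b) :=
    (hcont.mono hball).comp (by fun_prop) fun y hy =>
      hmem y (by rwa [mem_closedBall, dist_eq_norm] at hy)
  obtain ⟨z, hz, hmax⟩ := (isCompact_closedBall x b).exists_isMaxOn
    ⟨x, mem_closedBall_self hb⟩ hc
  rw [mem_closedBall, dist_eq_norm] at hz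
  have hle : ∀ y, ‖y - x‖ ≤ b → u (c + σ • y) ≤ u (c + σ • z) := fun y hy =>
    hmax (a := y) (by rwa [mem_closedBall, dist_eq_norm])
  have hxz : u (c + σ • x) ≤ u (c + σ • z) := hle x (by simpa using hb)
  refine ⟨z, hz, div_le_div_of_nonneg_right hxz hK.le, fun y hy =>
    ⟨div_le_div_of_nonneg_right (hle y hy) hK.le, ?_⟩⟩
  rcases eq_or_lt_of_le hb with rfl | hb'
  · rw [zero_mul]
    exact mul_nonneg (norm_nonneg _) (sub_nonneg.2 (div_le_div_of_nonneg_right hxz hK.le))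
  have hball' : closedBall (c + σ • x) (σ * b) ⊆ closedBall c σ := by
    refine closedBall_subset_closedBall' ?_
    rw [dist_eq_norm, add_sub_cancel_left, hnorm, ← mul_add]
    exact mul_le_of_le_one_right hσ.le (by linarith)
  have hcone := cone_le (hcont.mono hball) (fun w hw => hsub w (hball hw))
    (c := c + σ • x) (a := (u (c + σ • z) - u (c + σ • x)) / (σ * b)) (b := u (c + σ • x))
    hball' (div_nonneg (sub_nonneg.2 hxz) (by positivity)) le_rfl (fun w hw => ?_)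
    (x := c + σ • y) (by
      rw [dist_eq_norm, show c + σ • y - (c + σ • x) = σ • (y - x) by module, hnorm]
      exact mul_le_mul_of_nonneg_left hy hσ.le)
  · rw [dist_eq_norm, show c + σ • y - (c + σ • x) = σ • (y - x) by module, hnorm,
      div_mul_eq_mul_div, ← sub_le_iff_le_add, le_div_iff₀ (by positivity)] at hcone
    rw [← sub_div, ← sub_div, mul_div_assoc', mul_div_assoc', div_le_div_iff_of_pos_right hK]
    refine le_of_mul_le_mul_left ?_ hσ
    linarith
  · rw [div_mul_cancel₀ _ (by positivity), sub_add_cancel]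
    rw [mem_sphere, dist_eq_norm] at hw
    have he : c + σ • (σ⁻¹ • (w - c)) = w := by
      rw [smul_inv_smul₀ hσ.ne', add_sub_cancel]
    refine he ▸ hle (σ⁻¹ • (w - c)) ?_
    rw [show σ⁻¹ • (w - c) - x = σ⁻¹ • (w - (c + σ • x)) by
      rw [smul_sub, smul_sub, smul_add, inv_smul_smul₀ hσ.ne']; module, norm_smul,
      Real.norm_of_nonneg (by positivity), hw, inv_mul_cancel_left₀ hσ.ne']

/-- A normalised restriction of a viscosity solution belongs to the cone class. -/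
theorem good_of_visc {u : E → ℝ} {s : Set E} (hcont : ContinuousOn u s)
    (hsub : ∀ z ∈ s, ∀ φ : E → ℝ, ContDiff ℝ 2 φ → IsLocalMax (fun y => u y - φ y) z →
      0 ≤ fderiv ℝ (fderiv ℝ φ) z (gradient φ z) (gradient φ z))
    (hsup : ∀ z ∈ s, ∀ φ : E → ℝ, ContDiff ℝ 2 φ → IsLocalMin (fun y => u y - φ y) z →
      fderiv ℝ (fderiv ℝ φ) z (gradient φ z) (gradient φ z) ≤ 0)
    {c : E} {σ K : ℝ} (hσ : 0 < σ) (hK : 0 < K) (hball : closedBall c (2 * σ) ⊆ s)
    (hosc : ∀ v ∈ closedBall c (2 * σ), ∀ w ∈ closedBall c (2 * σ), u v - u w ≤ K) :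
    Good (fun z => u (c + σ • z) / K) 1 := by
  have hb : closedBall c σ ⊆ s := (closedBall_subset_closedBall (by linarith)).trans hball
  refine ⟨fun x y hx hy => ?_, upCone_of_sub hcont hsub hσ hK hb, ?_⟩
  · have hmem : ∀ y : E, ‖y‖ ≤ 1 → c + σ • y ∈ closedBall c σ := fun y hy => by
      rw [mem_closedBall, dist_eq_norm, add_sub_cancel_left, norm_smul,
        Real.norm_of_nonneg hσ.le]
      exact mul_le_of_le_one_right hσ.le hy
    have h := (abs_le.1 (lip_of_osc hcont hsub hσ hball hosc _ (hmem x hx) _ (hmem y hy))).2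
    rw [dist_eq_norm, show c + σ • x - (c + σ • y) = σ • (x - y) by module, norm_smul,
      Real.norm_of_nonneg hσ.le, ← mul_assoc, div_mul_cancel₀ _ hσ.ne', mul_comm] at h
    show u (c + σ • x) / K - u (c + σ • y) / K ≤ ‖x - y‖
    rw [← sub_div, div_le_iff₀ hK]
    exact h
  · have hsubneg : ∀ z ∈ s, ∀ φ : E → ℝ, ContDiff ℝ 2 φ →
        IsLocalMax (fun y => -u y - φ y) z →
          0 ≤ fderiv ℝ (fderiv ℝ φ) z (gradient φ z) (gradient φ z) := by
      intro z hz φ hφ hmax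
      have h := hsup z hz (fun y => -φ y) hφ.neg
        (hmax.neg.congr (Filter.Eventually.of_forall fun y => by simp; ring))
      rw [infLap_neg] at h
      linarith
    simpa [neg_div] using upCone_of_sub hcont.neg hsubneg hσ hK hb

/-- Continuous functions with vanishing second differences are affine. -/
theorem affine_of_sd_zero {u : E → ℝ} (hu : Continuous u) (h : ∀ x d, sd u x d = 0) :
    ∃ p : E, ∀ x, u x = u 0 + ⟪p, x⟫ := by
  have hadd : ∀ x y, u (x + y) - u 0 = (u x - u 0) + (u y - u 0) := fun x y => by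
    have h1 := h ((2⁻¹ : ℝ) • (x + y)) ((2⁻¹ : ℝ) • (x + y))
    have h2 := h ((2⁻¹ : ℝ) • (x + y)) ((2⁻¹ : ℝ) • (x - y))
    simp only [sd] at h1 h2
    rw [sub_self, show (2⁻¹ : ℝ) • (x + y) + (2⁻¹ : ℝ) • (x + y) = x + y by module] at h1
    rw [show (2⁻¹ : ℝ) • (x + y) + (2⁻¹ : ℝ) • (x - y) = x by module,
      show (2⁻¹ : ℝ) • (x + y) - (2⁻¹ : ℝ) • (x - y) = y by module] at h2
    linarith
  set f : E →+ ℝ := AddMonoidHom.mk' (fun x => u x - u 0) hadd
  have hf : Continuous f := hu.sub continuous_const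
  refine ⟨(InnerProductSpace.toDual ℝ E).symm (f.toRealLinearMap hf), fun x => ?_⟩
  rw [InnerProductSpace.toDual_symm_apply]
  change u x = u 0 + (u x - u 0)
  ring

/-- Uniform flatness at every small scale around every point of the concentric half ball. -/
theorem uniform_flat {ε : ℝ} (hε : 0 < ε) :
    ∃ θ : ℝ, 0 < θ ∧ ∀ {F : Type} [NormedAddCommGroup F] [InnerProductSpace ℝ F]
      [FiniteDimensional ℝ F] (x₀ : F) (R K : ℝ) (u : F → ℝ), 0 < R →
      ContinuousOn u (ball x₀ R) →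
      (∀ z ∈ ball x₀ R, ∀ φ : F → ℝ, ContDiff ℝ 2 φ → IsLocalMax (fun y => u y - φ y) z →
        0 ≤ fderiv ℝ (fderiv ℝ φ) z (gradient φ z) (gradient φ z)) →
      (∀ z ∈ ball x₀ R, ∀ φ : F → ℝ, ContDiff ℝ 2 φ → IsLocalMin (fun y => u y - φ y) z →
        fderiv ℝ (fderiv ℝ φ) z (gradient φ z) (gradient φ z) ≤ 0) →
      (∀ z ∈ ball x₀ R, ∀ w ∈ ball x₀ R, u z - u w ≤ K) →
      ∀ x ∈ closedBall x₀ (R / 2),
        (∀ h, ‖h‖ ≤ θ * R → |u (x + h) + u (x - h) - 2 * u x| ≤ ε * K / R * ‖h‖) ∧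
        (∀ r, 0 < r → r ≤ θ * R → ∃ p : F,
          ∀ y ∈ closedBall x r, |u y - u x - ⟪p, y - x⟫| ≤ ε * K / R * r) := by
  obtain ⟨θ₁, hθ₁, hθ₁4, hsd⟩ := sd_vanish (div_pos hε (by norm_num : (0 : ℝ) < 8))
  obtain ⟨θ₂, hθ₂, -, haff⟩ := affine_approx (div_pos hε (by norm_num : (0 : ℝ) < 8))
  refine ⟨min θ₁ θ₂ / 8, by positivity, ?_⟩
  intro F _ _ _ x₀ R K u hR hcont hsub hsup hosc x hx
  rw [mem_closedBall] at hx
  have hθle : min θ₁ θ₂ / 8 * R ≤ R / 4 :=
    (mul_le_mul_of_nonneg_right (by linarith [min_le_left θ₁ θ₂] : min θ₁ θ₂ / 8 ≤ 1 / 4)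
      hR.le).trans_eq (by ring)
  have hmem : ∀ {y : F}, dist y x ≤ R / 4 → y ∈ ball x₀ R := fun {y} hy => by
    rw [mem_ball]; linarith [dist_triangle y x x₀]
  have hxb : x ∈ ball x₀ R := hmem (by rw [dist_self]; positivity)
  rcases eq_or_lt_of_le (show 0 ≤ K by simpa using hosc x hxb x hxb) with hK | hK
  · have hc : ∀ y, dist y x ≤ R / 4 → u y = u x := fun y hy => by
      linarith [hosc y (hmem hy) x hxb, hosc x hxb y (hmem hy)]
    subst hK
    refine ⟨fun h hh => ?_, fun r hr hrθ => ⟨0, fun y hy => ?_⟩⟩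
    · rw [hc (x + h) (by rw [dist_eq_norm, add_sub_cancel_left]; linarith),
        hc (x - h) (by rw [dist_eq_norm, sub_sub_cancel_left, norm_neg]; linarith)]
      simp [two_mul]
    · rw [mem_closedBall] at hy
      rw [hc y (by linarith)]
      simp
  have hσ : (0 : ℝ) < R / 8 := by positivity
  have hb : closedBall x (2 * (R / 8)) ⊆ ball x₀ R := fun y hy => by
    rw [mem_closedBall] at hy; exact hmem (by linarith)
  have hgood := good_of_visc hcont hsub hsup hσ hK hb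
    fun v hv w hw => hosc v (hb hv) w (hb hw)
  set σ := R / 8 with hσdef
  have hsmul : ∀ {y : F} {ρ θ' : ℝ}, ‖y‖ ≤ ρ → ρ ≤ min θ₁ θ₂ / 8 * R → min θ₁ θ₂ ≤ θ' →
      ‖σ⁻¹ • y‖ ≤ θ' := fun {y ρ θ'} hy hρ hθ' => by
    rw [norm_smul, Real.norm_of_nonneg (by positivity), inv_mul_le_iff₀ hσ, hσdef]
    nlinarith [mul_le_mul_of_nonneg_left hθ' hR.le]
  refine ⟨fun h hh => ?_, fun r hr hrθ => ?_⟩
  · have hz := hsmul (le_refl ‖h‖) hh (min_le_left θ₁ θ₂)
    have h1 := hsd _ hgood (σ⁻¹ • h) hz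
    have h2 := hsd _ hgood.neg (σ⁻¹ • h) hz
    simp only [sd, zero_add, zero_sub, smul_neg, smul_zero, smul_inv_smul₀ hσ.ne', add_zero,
      ← sub_eq_add_neg] at h1 h2
    have e : ε / 8 * ‖σ⁻¹ • h‖ = ε / R * ‖h‖ := by
      rw [norm_smul, Real.norm_of_nonneg (by positivity), hσdef]; field_simp
    rw [e] at h1 h2
    have key : |(u (x + h) + u (x - h) - 2 * u x) / K| ≤ ε / R * ‖h‖ := by
      rw [sub_div, add_div, mul_div_assoc]; exact abs_le.2 ⟨by linarith, by linarith⟩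
    rw [abs_div, abs_of_pos hK, div_le_iff₀ hK] at key
    exact key.trans_eq (by ring)
  · obtain ⟨p, hp⟩ := haff _ hgood (σ⁻¹ * r) (by positivity) (by
      rw [inv_mul_le_iff₀ hσ, hσdef]
      nlinarith [mul_le_mul_of_nonneg_left (min_le_right θ₁ θ₂) hR.le])
    refine ⟨(K / σ) • p, fun y hy => ?_⟩
    rw [mem_closedBall, dist_eq_norm] at hy
    have h1 := hp (σ⁻¹ • (y - x)) (by
      rw [norm_smul, Real.norm_of_nonneg (by positivity)]; gcongr)
    simp only [smul_zero, add_zero, smul_inv_smul₀ hσ.ne', add_sub_cancel,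
      real_inner_smul_right] at h1
    rw [real_inner_smul_left]
    have e : u y - u x - K / σ * ⟪p, y - x⟫
        = K * (u y / K - u x / K - σ⁻¹ * ⟪p, y - x⟫) := by field_simp
    rw [e, abs_mul, abs_of_pos hK]
    refine (mul_le_mul_of_nonneg_left h1 hK.le).trans_eq ?_
    rw [hσdef]; field_simp

/-- Entire infinity-harmonic functions of at most linear growth are affine. -/
theorem liouville {F : Type} [NormedAddCommGroup F] [InnerProductSpace ℝ F]
    [FiniteDimensional ℝ F] {u : F → ℝ} (hcont : ContinuousOn u univ)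
    (hsub : ∀ z ∈ univ, ∀ φ : F → ℝ, ContDiff ℝ 2 φ → IsLocalMax (fun y => u y - φ y) z →
      0 ≤ fderiv ℝ (fderiv ℝ φ) z (gradient φ z) (gradient φ z))
    (hsup : ∀ z ∈ univ, ∀ φ : F → ℝ, ContDiff ℝ 2 φ → IsLocalMin (fun y => u y - φ y) z →
      fderiv ℝ (fderiv ℝ φ) z (gradient φ z) (gradient φ z) ≤ 0)
    (hC : ∃ C : ℝ, ∀ x, |u x| ≤ C * (1 + ‖x‖)) : ∃ p : F, ∀ x, u x = u 0 + ⟪p, x⟫ := by
  obtain ⟨C, hC⟩ := hC
  have hC0 : 0 ≤ C := by
    have := (abs_nonneg _).trans (hC 0)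
    simpa using this
  refine affine_of_sd_zero (continuousOn_univ.1 hcont) fun x d => ?_
  rw [← abs_eq_zero]
  refine le_antisymm (le_of_forall_pos_le_add fun e he => ?_) (abs_nonneg _)
  set ε := e / (4 * C * ‖d‖ + 1) with hεdef
  obtain ⟨θ, hθ, H⟩ := uniform_flat (div_pos he (by positivity : (0 : ℝ) < 4 * C * ‖d‖ + 1))
  set R := 1 + 2 * ‖x‖ + ‖d‖ / θ with hR
  have hd0 : 0 ≤ ‖d‖ / θ := by positivity
  have hR1 : 1 ≤ R := by rw [hR]; linarith [norm_nonneg x]
  have hosc : ∀ z ∈ ball (0 : F) R, ∀ w ∈ ball (0 : F) R, u z - u w ≤ 4 * C * R :=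
    fun z hz w hw => by
    rw [mem_ball_zero_iff] at hz hw
    have h1 := abs_le.1 (hC z)
    have h2 := abs_le.1 (hC w)
    nlinarith
  have hxR : x ∈ closedBall (0 : F) (R / 2) := by
    rw [mem_closedBall_zero_iff, hR]; linarith
  have hdR : ‖d‖ ≤ θ * R := by
    rw [hR, mul_add, mul_div_cancel₀ _ hθ.ne']
    nlinarith [norm_nonneg x]
  have h1 := (H 0 R (4 * C * R) u (by linarith) (hcont.mono (subset_univ _))
    (fun z _ => hsub z (mem_univ z)) (fun z _ => hsup z (mem_univ z)) hosc x hxR).1 d hdR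
  refine h1.trans ?_
  rw [zero_add, ← hεdef]
  have h2 : ε * (4 * C * R) / R * ‖d‖ = ε * (4 * C * ‖d‖) := by field_simp
  rw [h2, hεdef, div_mul_eq_mul_div, div_le_iff₀ (by positivity)]
  nlinarith

end Vale.Agent.P080.Flat
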