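import Vale.Agent.P080.Flat.Basic

/-!
The slope over balls is monotone; where it is almost constant over a long range of radii the
function is flat (P080).
-/

namespace Vale.Agent.P080.Flat

open Metric Set
open scoped RealInnerProductSpace

set_option linter.unusedSectionVars false

variable {E : Type*} [NormedAddCommGroup E] [InnerProductSpace ℝ E] [FiniteDimensional ℝ E]

/-- A maximiser of the upward cone over the ball of radius `ρ` realises the slope. -/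
theorem slope_spec {u : E → ℝ} {Q ρ : ℝ} (hu : Good u Q) (hρ : 0 < ρ) (hQ : ρ ≤ Q) :
    ∃ z, ‖z‖ ≤ ρ ∧ u z = u 0 + slope u ρ * ρ ∧ u 0 ≤ u z ∧
      ∀ y, ‖y‖ ≤ ρ → u y ≤ u z ∧ u y - u 0 ≤ ‖y‖ * slope u ρ := by
  obtain ⟨z, hz, h0, hy⟩ := hu.up 0 ρ hρ.le (by simpa using hQ)
  rw [sub_zero] at hz
  simp only [sub_zero] at hy
  have hmax : IsGreatest (u '' closedBall 0 ρ) (u z) := by
    refine ⟨⟨z, mem_closedBall_zero_iff.2 hz, rfl⟩, ?_⟩
    rintro _ ⟨y, hy', rfl⟩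
    exact (hy y (mem_closedBall_zero_iff.1 hy')).1
  have hs : slope u ρ * ρ = u z - u 0 := by
    rw [slope, hmax.csSup_eq, div_mul_cancel₀ _ hρ.ne']
  refine ⟨z, hz, by linarith, h0, fun y h => ⟨(hy y h).1, ?_⟩⟩
  refine le_of_mul_le_mul_left ?_ hρ
  calc ρ * (u y - u 0) ≤ ‖y‖ * (u z - u 0) := (hy y h).2
    _ = ρ * (‖y‖ * slope u ρ) := by rw [← hs]; ring

theorem slope_mem_Icc {u : E → ℝ} {Q ρ : ℝ} (hu : Good u Q) (hρ : 0 < ρ) (hQ : ρ ≤ Q) :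
    slope u ρ ∈ Icc (0 : ℝ) 1 := by
  obtain ⟨z, hz, he, h0, -⟩ := slope_spec hu hρ hQ
  have h := hu.lip z 0 (hz.trans hQ) (by simp; linarith)
  rw [sub_zero] at h
  exact ⟨nonneg_of_mul_nonneg_left (by linarith) hρ,
    le_of_mul_le_mul_right (by linarith) hρ⟩

theorem slope_mono {u : E → ℝ} {Q a b : ℝ} (hu : Good u Q) (ha : 0 < a) (hab : a ≤ b)
    (hQ : b ≤ Q) : slope u a ≤ slope u b := by
  obtain ⟨z, hz, he, -, -⟩ := slope_spec hu ha (hab.trans hQ)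
  obtain ⟨w, -, -, -, hw⟩ := slope_spec hu (ha.trans_le hab) hQ
  have h1 := (hw z (hz.trans hab)).2
  have h2 := mul_le_mul_of_nonneg_right hz (slope_mem_Icc hu (ha.trans_le hab) hQ).1
  exact le_of_mul_le_mul_right (by linarith) ha

/-- The length of `w` is below the tangent parabola of the square root at `ρ`. -/
theorem norm_le_parab {ρ : ℝ} (hρ : 0 < ρ) (z y : E) (hy : ‖y‖ ≤ ρ) :
    ‖z - y‖ ≤ ρ + ‖z‖ ^ 2 / (2 * ρ) - ⟪y, z⟫ / ρ := by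
  have h1 := norm_sub_sq_real z y
  have h2 := pow_le_pow_left₀ (norm_nonneg y) hy 2
  rw [real_inner_comm] at h1
  have e : ρ + ‖z‖ ^ 2 / (2 * ρ) - ⟪y, z⟫ / ρ =
      (2 * ρ ^ 2 + ‖z‖ ^ 2 - 2 * ⟪y, z⟫) / (2 * ρ) := by
    field_simp
  rw [e, le_div_iff₀ (by positivity)]
  nlinarith [sq_nonneg (‖z - y‖ - ρ)]

theorem norm_le_of_sub {v z : E} {a b : ℝ} (hv : ‖v‖ ≤ a) (hz : ‖z - v‖ ≤ b) :
    ‖z‖ ≤ a + b := by
  have := norm_add_le v (z - v)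
  rw [add_sub_cancel] at this
  linarith

/-- The Lipschitz bound on a ball by the slope over a much larger ball. -/
theorem lip_slope {u : E → ℝ} {Q ρ P : ℝ} (hu : Good u Q) (hρ : 0 < ρ) (hP : 2 ≤ P)
    (hQ : 4 * P * ρ ≤ Q) {v w : E} (hv : ‖v‖ ≤ ρ) (hw : ‖w‖ ≤ ρ) :
    u w - u v ≤ (slope u (4 * P * ρ) + 1 / P) * ‖w - v‖ := by
  have hP0 : 0 < P := by linarith
  have hρP : 2 * ρ ≤ P * ρ := mul_le_mul_of_nonneg_right hP hρ.le
  obtain ⟨hT0, hT1⟩ := slope_mem_Icc hu (by positivity : 0 < 4 * P * ρ) hQ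
  obtain ⟨z, hz, -, hzy⟩ := hu.up v (2 * P * ρ) (by positivity) (by linarith)
  have hwv : ‖w - v‖ ≤ 2 * P * ρ := by linarith [norm_sub_le w v]
  have hzn : ‖z‖ ≤ ρ + 2 * P * ρ := norm_le_of_sub hv hz
  obtain ⟨m, -, -, -, hm⟩ := slope_spec hu (by positivity : 0 < 4 * P * ρ) hQ
  have h1 := (hm z (by linarith)).2
  have h2 := hu.lip 0 v (by simp; linarith) (by linarith)
  rw [zero_sub, norm_neg] at h2
  have h3 : u z - u v ≤ 2 * P * ρ * (slope u (4 * P * ρ) + 1 / P) := by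
    have e : 2 * P * ρ * (slope u (4 * P * ρ) + 1 / P) =
        2 * P * ρ * slope u (4 * P * ρ) + 2 * ρ := by field_simp
    have h5 := mul_le_mul_of_nonneg_right hzn hT0
    have h6 := mul_le_mul_of_nonneg_left hT1 hρ.le
    linarith
  refine le_of_mul_le_mul_left ?_ (by positivity : 0 < 2 * P * ρ)
  calc 2 * P * ρ * (u w - u v) ≤ ‖w - v‖ * (u z - u v) := (hzy w hwv).2
    _ ≤ ‖w - v‖ * (2 * P * ρ * (slope u (4 * P * ρ) + 1 / P)) :=
        mul_le_mul_of_nonneg_left h3 (norm_nonneg _)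
    _ = _ := by ring

/-- The downward slope over a ball is almost the upward slope over a much smaller one. -/
theorem exists_low {u : E → ℝ} {Q ρ P : ℝ} (hu : Good u Q) (hρ : 0 < ρ) (hP : 2 ≤ P)
    (hQ : ρ ≤ Q) : ∃ b, ‖b‖ ≤ ρ ∧ u b ≤ u 0 - ρ * (slope u (ρ / P) - 2 / P) := by
  have hq : ρ / P ≤ ρ / 2 := div_le_div_of_nonneg_left hρ.le two_pos hP
  have hq0 : 0 < ρ / P := div_pos hρ (by linarith)
  obtain ⟨hS0, hS1⟩ := slope_mem_Icc hu hq0 (show ρ / P ≤ Q by linarith)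
  obtain ⟨c, hc, hce, h0c, -⟩ := slope_spec hu hq0 (show ρ / P ≤ Q by linarith)
  obtain ⟨b, hb, hcb, hby⟩ := hu.down c (ρ - ρ / P) (by linarith) (by linarith)
  refine ⟨b, by linarith [norm_le_of_sub hc hb], ?_⟩
  obtain ⟨h1, h2⟩ := hby 0 (by rw [zero_sub, norm_neg]; linarith)
  rw [zero_sub, norm_neg] at h2
  beta_reduce at h2 hcb
  have h3 := h2.trans (mul_le_mul_of_nonneg_right hc (by linarith))
  have h4 : (ρ - ρ / P) * slope u (ρ / P) ≤ u c - u b := by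
    refine le_of_mul_le_mul_left ?_ hq0
    linear_combination h3 - (ρ - ρ / P) * hce
  have h5 := mul_le_mul_of_nonneg_left hS1 hq0.le
  have e : ρ * (2 / P) = 2 * (ρ / P) := by ring
  linarith

/-- Two points of the ball with almost the largest difference of values are almost antipodal. -/
theorem antipodal {L ε ρ : ℝ} {a b : E} (hρ : 0 < ρ) (hL0 : 0 ≤ L) (hL2 : L ≤ 2) (hε : 0 ≤ ε)
    (ha : ‖a‖ ≤ ρ) (hb : ‖b‖ ≤ ρ) (h : 2 * ρ * (L - ε) ≤ L * ‖a - b‖) :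
    L * ‖a + b‖ ≤ 4 * ρ * Real.sqrt ε := by
  have hpar : ‖a + b‖ ^ 2 + ‖a - b‖ ^ 2 ≤ 4 * ρ ^ 2 := by
    have hA := pow_le_pow_left₀ (norm_nonneg a) ha 2
    have hB := pow_le_pow_left₀ (norm_nonneg b) hb 2
    rw [norm_add_sq_real, norm_sub_sq_real]
    linarith
  have hpar' := mul_le_mul_of_nonneg_left hpar (sq_nonneg L)
  have hρL : ρ ^ 2 * (L * ε) ≤ ρ ^ 2 * (2 * ε) :=
    mul_le_mul_of_nonneg_left (mul_le_mul_of_nonneg_right hL2 hε) (sq_nonneg ρ)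
  have hsq : (L * ‖a + b‖) ^ 2 ≤ 16 * ρ ^ 2 * ε := by
    rcases le_total L ε with hle | hle
    · have h1 := mul_le_mul_of_nonneg_left (mul_le_mul_of_nonneg_left hle hL0) (sq_nonneg ρ)
      have h2 := mul_nonneg (sq_nonneg ρ) hε
      have h3 := sq_nonneg (L * ‖a - b‖)
      linarith
    · have h1 := pow_le_pow_left₀ (mul_nonneg (by linarith) (sub_nonneg.2 hle)) h 2
      have h2 := mul_nonneg (sq_nonneg ρ) (sq_nonneg ε)
      linarith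
  have h1 := Real.sqrt_le_sqrt hsq
  rwa [Real.sqrt_sq (by positivity), Real.sqrt_mul' _ hε,
    show (16 : ℝ) * ρ ^ 2 = (4 * ρ) ^ 2 by ring, Real.sqrt_sq (by positivity)] at h1

/-- The cones from two almost antipodal points squeeze the function onto a linear one. -/
theorem squeeze {u : E → ℝ} {L ε ρ : ℝ} {a b z : E} (hρ : 0 < ρ) (hL0 : 0 ≤ L) (hL2 : L ≤ 2)
    (hε : 0 ≤ ε) (ha : ‖a‖ ≤ ρ) (hb : ‖b‖ ≤ ρ) (hup : u 0 + ρ * (L - ε) ≤ u a)
    (hlow : u b ≤ u 0 - ρ * (L - ε)) (hab : L * ‖a + b‖ ≤ 4 * ρ * Real.sqrt ε)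
    (hl1 : u a - u z ≤ L * ‖a - z‖) (hl2 : u z - u b ≤ L * ‖z - b‖) :
    |u z - u 0 - ⟪(L / ρ) • a, z⟫|
      ≤ 3 * ρ * ε + 2 * ‖z‖ ^ 2 / ρ + 8 * ‖z‖ * Real.sqrt ε := by
  have hlo := mul_le_mul_of_nonneg_left (norm_le_parab hρ z a ha) hL0
  have hhi := mul_le_mul_of_nonneg_left (norm_le_parab hρ z b hb) hL0
  rw [norm_sub_rev a z] at hl1
  have hLz : L * (‖z‖ ^ 2 / (2 * ρ)) ≤ ‖z‖ ^ 2 / ρ := by
    calc L * (‖z‖ ^ 2 / (2 * ρ)) ≤ 2 * (‖z‖ ^ 2 / (2 * ρ)) :=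
          mul_le_mul_of_nonneg_right hL2 (by positivity)
      _ = _ := by ring
  have hinner : -(L / ρ * ⟪b, z⟫) - L / ρ * ⟪a, z⟫ ≤ 4 * ‖z‖ * Real.sqrt ε := by
    have h1 := neg_le_of_abs_le (abs_real_inner_le_norm (a + b) z)
    rw [inner_add_left] at h1
    have h2 := mul_le_mul_of_nonneg_left h1 (by positivity : 0 ≤ L / ρ)
    have h3 := mul_le_mul_of_nonneg_left hab (by positivity : 0 ≤ ‖z‖ / ρ)
    have e1 : ‖z‖ / ρ * (4 * ρ * Real.sqrt ε) = 4 * ‖z‖ * Real.sqrt ε := by field_simp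
    have e2 : ‖z‖ / ρ * (L * ‖a + b‖) = L / ρ * (‖a + b‖ * ‖z‖) := by ring
    linarith
  have ea : L * (⟪a, z⟫ / ρ) = L / ρ * ⟪a, z⟫ := by ring
  have eb : L * (⟪b, z⟫ / ρ) = L / ρ * ⟪b, z⟫ := by ring
  have e2 : 2 * ‖z‖ ^ 2 / ρ = 2 * (‖z‖ ^ 2 / ρ) := by ring
  have hnn : 0 ≤ ‖z‖ * Real.sqrt ε := mul_nonneg (norm_nonneg z) (Real.sqrt_nonneg _)
  have hρε := mul_nonneg hρ.le hε
  have hzρ : 0 ≤ ‖z‖ ^ 2 / ρ := by positivity
  rw [real_inner_smul_left, abs_le]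
  constructor <;> linarith

/-- Flatness where the slope is almost constant. -/
theorem flat_point {u : E → ℝ} {Q ρ P η : ℝ} (hu : Good u Q) (hρ : 0 < ρ) (hP : 2 ≤ P)
    (hη : 0 ≤ η) (hη1 : η ≤ 1) (hQ : 4 * P * ρ ≤ Q)
    (hT : slope u (4 * P * ρ) ≤ slope u (ρ / P) + η) :
    ∃ p : E, ∀ z, ‖z‖ ≤ ρ → |u z - u 0 - ⟪p, z⟫|
      ≤ 3 * ρ * (η + 4 / P) + 2 * ‖z‖ ^ 2 / ρ + 8 * ‖z‖ * Real.sqrt (η + 4 / P) := by
  have hρP : 2 * ρ ≤ P * ρ := mul_le_mul_of_nonneg_right hP hρ.le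
  have hρQ : ρ ≤ Q := by linarith
  have hq : ρ / P ≤ ρ := div_le_self hρ.le (by linarith)
  have hq0 : 0 < ρ / P := div_pos hρ (by linarith)
  have hiP : 0 < 1 / P := one_div_pos.2 (by linarith)
  have hiP2 : 1 / P ≤ 1 / 2 := one_div_le_one_div_of_le two_pos hP
  have h4P : 4 / P = 4 * (1 / P) := by ring
  have h2P : 2 / P = 2 * (1 / P) := by ring
  obtain ⟨hT0, hT1⟩ := slope_mem_Icc hu (by positivity : 0 < 4 * P * ρ) hQ
  have hε0 : 0 ≤ η + 4 / P := by linarith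
  have hlip := fun v w : E => lip_slope hu hρ hP hQ (v := v) (w := w)
  obtain ⟨a, ha, hae, -, -⟩ := slope_spec hu hρ hρQ
  obtain ⟨b, hb, hbe⟩ := exists_low hu hρ hP hρQ
  have hup : u 0 + ρ * (slope u (4 * P * ρ) + 1 / P - (η + 4 / P)) ≤ u a := by
    have h1 := mul_le_mul_of_nonneg_left (show slope u (4 * P * ρ) + 1 / P - (η + 4 / P) ≤
      slope u ρ by linarith [slope_mono hu hq0 hq hρQ]) hρ.le
    linarith
  have hlow : u b ≤ u 0 - ρ * (slope u (4 * P * ρ) + 1 / P - (η + 4 / P)) := by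
    have h1 := mul_le_mul_of_nonneg_left (show slope u (4 * P * ρ) + 1 / P - (η + 4 / P) ≤
      slope u (ρ / P) - 2 / P by linarith) hρ.le
    linarith
  have hab := antipodal (L := slope u (4 * P * ρ) + 1 / P) hρ (by linarith) (by linarith) hε0 ha hb
    (by linarith [hlip b a hb ha])
  exact ⟨_, fun z hz => squeeze hρ (by linarith) (by linarith) hε0 ha hb hup hlow hab
    (hlip z a hz ha) (hlip b z hb hz)⟩

end Vale.Agent.P080.Flat
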