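import Vale.Agent.P080.Flat.Descent
import Vale.Agent.P080.Flat.Point

/-!
Second differences vanish uniformly at small scales: almost maximal second differences descend
through all scales at bounded displacement, and this contradicts flatness at the limit point
(P080).
-/

namespace Vale.Agent.P080.Flat

open Metric Set
open scoped RealInnerProductSpace

set_option linter.unusedSectionVars false

variable {E : Type*} [NormedAddCommGroup E] [InnerProductSpace ℝ E] [FiniteDimensional ℝ E]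

/-- Iterated descent. -/
theorem descent_chain {u : E → ℝ} {Q A Z η₀ ρ R : ℝ} (hZ : 0 < Z) (hZ2 : Z ≤ 2)
    (hRZ : R * Z = 25) (hu : Good u Q) (hAQ : A ≤ Q)
    (hD : ∀ x h : E, ‖x‖ ≤ A → ‖h‖ ≤ ρ → sd u x h ≤ (Z + η₀) * ‖h‖) (k : ℕ) :
    ∀ η : ℝ, 0 < η → 3 * η₀ ≤ η → 55 ^ k * η ≤ 1 / 200 → ∀ x d : E, 0 < ‖d‖ →
      ‖x‖ + 3 * (R + 5) * ‖d‖ ≤ A → 3 * ‖d‖ ≤ ρ → (Z - η) * ‖d‖ ≤ sd u x d →
      ∃ (c : E) (f : ℕ → ℝ), f 0 = ‖d‖ ∧ (∀ j < k, 0 < f (j + 1) ∧ f (j + 1) ≤ f j / 2) ∧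
        ‖x - c‖ ≤ 2 * (R + 1) * ‖d‖ ∧ ∀ j ≤ k, ∃ y e : E, ‖e‖ = f j ∧
          ‖y - c‖ ≤ 2 * (R + 1) * f j ∧ (Z - 55 ^ k * η) * ‖e‖ ≤ sd u y e := by
  have hR : 0 < R := by nlinarith
  induction k with
  | zero =>
    intro η hη _ _ x d hd _ _ h₀
    refine ⟨x, fun _ => ‖d‖, rfl, fun j hj => absurd hj (by omega), by simp; positivity,
      fun j _ => ⟨x, d, rfl, by simp; positivity, by simpa using h₀⟩⟩
  | succ k ih =>
    intro η hη hη₀ hsmall x d hd hA hρ h₀
    set r := ‖d‖ with hr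
    have h55 : (1 : ℝ) ≤ 55 ^ k := one_le_pow₀ (by norm_num)
    have hsmall' : 55 ^ k * (55 * η) ≤ 1 / 200 := by
      rw [← mul_assoc, ← pow_succ]; exact hsmall
    have hη1 : η ≤ 1 / 200 := by
      have := mul_le_mul_of_nonneg_right h55 hη.le
      rw [pow_succ] at hsmall
      linarith
    have hv : Good (zoom u x r) (R + 5) :=
      hu.zoom hd (by linarith [mul_pos (by linarith : 0 < R + 5) hd])
    have hDv : ∀ z e : E, ‖z‖ ≤ R + 1 → ‖e‖ ≤ 3 → sd (zoom u x r) z e ≤ Z * ‖e‖ + η := by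
      intro z e hz he
      rw [sd_zoom, div_le_iff₀ hd]
      have hn : ‖r • e‖ = r * ‖e‖ := by rw [norm_smul, Real.norm_of_nonneg hd.le]
      have h1 := hD (x + r • z) (r • e)
        (zoom_mem hd hz (by linarith [mul_pos (by linarith : 0 < R + 7) hd]))
        (by rw [hn]; linarith [mul_le_mul_of_nonneg_left he hd.le])
      rw [hn] at h1
      have h2 : η₀ * ‖e‖ ≤ η := by nlinarith [norm_nonneg e]
      have h3 := mul_le_mul_of_nonneg_left h2 hd.le
      linarith
    have hd0 : ‖r⁻¹ • d‖ = 1 := by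
      rw [norm_smul, Real.norm_of_nonneg (inv_nonneg.2 hd.le), ← hr, inv_mul_cancel₀ hd.ne']
    have h0v : Z - η ≤ sd (zoom u x r) 0 (r⁻¹ • d) := by
      rw [sd_zoom, smul_zero, add_zero, smul_inv_smul₀ hd.ne', le_div_iff₀ hd]
      exact h₀
    obtain ⟨z, e, hz, he1, he2, hze⟩ :=
      descent_step hη hη1 hZ hZ2 hRZ hv le_rfl hDv hd0 h0v
    have hn : ‖r • e‖ = r * ‖e‖ := by rw [norm_smul, Real.norm_of_nonneg hd.le]
    have he0 : 0 < r * ‖e‖ := mul_pos hd (by linarith)
    have hhalf : r * ‖e‖ ≤ r / 2 := by linarith [mul_le_mul_of_nonneg_left he2 hd.le]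
    have hxz : ‖x + r • z - x‖ ≤ (R + 1) * r := by
      rw [add_sub_cancel_left, norm_smul, Real.norm_of_nonneg hd.le]
      linarith [mul_le_mul_of_nonneg_left hz hd.le]
    have hxz' : ‖x + r • z‖ ≤ ‖x‖ + (R + 1) * r := by linarith [norm_sub_norm_le (x + r • z) x]
    have hchild : (Z - 55 * η) * ‖r • e‖ ≤ sd u (x + r • z) (r • e) := by
      rw [sd_zoom, le_div_iff₀ hd] at hze
      rw [hn]
      have h1 : 22 * η ≤ 55 * η * ‖e‖ := by nlinarith
      have h2 := mul_le_mul_of_nonneg_left h1 hd.le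
      linarith
    obtain ⟨c, f, hf0, hfs, hxc, hall⟩ := ih (55 * η) (by linarith) (by linarith) hsmall'
      (x + r • z) (r • e) (by rw [hn]; exact he0)
      (by rw [hn]; linarith [mul_le_mul_of_nonneg_left hhalf (by linarith : 0 ≤ R + 5),
        mul_pos hR hd])
      (by rw [hn]; linarith) hchild
    rw [hn] at hf0 hxc
    have hxc' : ‖x - c‖ ≤ 2 * (R + 1) * r := by
      have := norm_sub_le_norm_sub_add_norm_sub x (x + r • z) c
      rw [norm_sub_rev x (x + r • z)] at this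
      linarith [mul_le_mul_of_nonneg_left hhalf (by linarith : 0 ≤ R + 1)]
    refine ⟨c, fun j => Nat.casesOn j r f, rfl, fun j hj => ?_, hxc', fun j hj => ?_⟩
    · cases j with
      | zero => exact ⟨by show 0 < f 0; linarith, by show f 0 ≤ r / 2; linarith⟩
      | succ j => exact hfs j (by omega)
    · have e55 : (55 : ℝ) ^ (k + 1) * η = 55 ^ k * (55 * η) := by ring
      cases j with
      | zero =>
        refine ⟨x, d, rfl, hxc', le_trans ?_ h₀⟩
        have : η ≤ 55 ^ (k + 1) * η := le_mul_of_one_le_left hη.le (one_le_pow₀ (by norm_num))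
        exact mul_le_mul_of_nonneg_right (by linarith) hd.le
      | succ j =>
        rw [e55]
        exact hall j (by omega)

/-- A monotone bounded sequence has a small drop. -/
theorem exists_small_drop {τ : ℕ → ℝ} {N : ℕ} {η : ℝ} (hN : 1 ≤ N * η)
    (h1 : τ 0 ≤ 1) (h0 : 0 ≤ τ N) : ∃ i < N, τ i ≤ τ (i + 1) + η := by
  by_contra h
  push Not at h
  have key : ∀ i ≤ N, 1 ≤ i → τ i + i * η < τ 0 := by
    intro i hi
    induction i with
    | zero => omega
    | succ i ih =>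
      intro _
      have := h i (by omega)
      rcases Nat.eq_zero_or_pos i with rfl | hp
      · push_cast; linarith
      · have := ih (by omega) hp
        push_cast; linarith
  have hN1 : 1 ≤ N := by
    by_contra hc
    have : N = 0 := by omega
    subst this
    simp at hN
    linarith
  have := key N le_rfl hN1
  linarith

/-- Halving gives geometric decay. -/
theorem halving {f : ℕ → ℝ} {K : ℕ} (hf : ∀ j < K, f (j + 1) ≤ f j / 2) :
    ∀ m i, i + m ≤ K → 2 ^ m * f (i + m) ≤ f i := by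
  intro m
  induction m with
  | zero => intro i _; simp
  | succ m ih =>
    intro i hi
    have h1 := hf (i + m) (by omega)
    have h2 := ih i (by omega)
    have h3 : (0 : ℝ) < 2 ^ m := by positivity
    have h4 := mul_le_mul_of_nonneg_left h1 h3.le
    rw [pow_succ, ← add_assoc]
    linarith

/-- The end point of a long chain is flat at one of its scales, which bounds the second
difference there. -/
theorem chain_flat {u : E → ℝ} {c : E} {f : ℕ → ℝ} {N J : ℕ} {ε B L P η : ℝ}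
    (hu : Good u 1) (hc : ‖c‖ ≤ 1 / 2) (hB : 0 ≤ B) (hL : B + 1 ≤ L) (hP : 2 ≤ P) (hη : 0 ≤ η)
    (hη1 : η ≤ 1) (hJ : 4 * P ^ 2 ≤ 2 ^ J) (hN : 1 ≤ N * η)
    (herr : 12 * L * (η + 4 / P) + 8 * (B + 1) ^ 2 / L + 32 * (B + 1) * Real.sqrt (η + 4 / P) < ε)
    (hf0 : 4 * P * L * f 0 ≤ 1 / 2) (hfpos : ∀ j ≤ N * J, 0 < f j)
    (hf : ∀ j < N * J, f (j + 1) ≤ f j / 2) :
    ∃ j ≤ N * J, ∀ y e : E, ‖e‖ = f j → ‖y - c‖ ≤ B * f j → sd u y e < ε * f j := by
  set v := zoom u c 1 with hv_def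
  have hv : Good v (1 / 2) := hu.zoom one_pos (by linarith)
  have hP0 : 0 < P := by linarith
  have hL0 : 0 < L := by linarith
  have hfi : ∀ i ≤ N, f (i * J) ≤ f 0 := fun i hi => by
    have := halving hf (i * J) 0 (by simpa using Nat.mul_le_mul_right J hi)
    rw [zero_add] at this
    have h2 : (1 : ℝ) ≤ 2 ^ (i * J) := one_le_pow₀ (by norm_num)
    nlinarith [hfpos (i * J) (Nat.mul_le_mul_right J hi)]
  have hdom : ∀ i ≤ N, 0 < 4 * P * (L * f (i * J)) ∧ 4 * P * (L * f (i * J)) ≤ 1 / 2 :=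
    fun i hi => ⟨by have := hfpos (i * J) (Nat.mul_le_mul_right J hi); positivity,
      by nlinarith [mul_le_mul_of_nonneg_left (hfi i hi) (by positivity : 0 ≤ 4 * P * L)]⟩
  obtain ⟨i, hiN, hi⟩ := exists_small_drop (τ := fun i => slope v (4 * P * (L * f (i * J)))) hN
    (slope_mem_Icc hv (hdom 0 (by omega)).1 (hdom 0 (by omega)).2).2
    (slope_mem_Icc hv (hdom N le_rfl).1 (hdom N le_rfl).2).1
  have hjle : i * J ≤ N * J := Nat.mul_le_mul_right J hiN.le
  refine ⟨i * J, hjle, fun y e he hy => ?_⟩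
  set r := f (i * J) with hr
  have hr0 : 0 < r := hfpos _ hjle
  set ρ := L * r with hρ
  have hρ0 : 0 < ρ := mul_pos hL0 hr0
  have hnext : 4 * P * (L * f ((i + 1) * J)) ≤ ρ / P := by
    have h1 := halving hf J (i * J) (by rw [← Nat.succ_mul]; exact Nat.mul_le_mul_right J hiN)
    rw [← Nat.succ_mul] at h1
    have h0 := hfpos ((i + 1) * J) (Nat.mul_le_mul_right J hiN)
    rw [hρ, le_div_iff₀ hP0]
    have h2 := mul_le_mul_of_nonneg_right hJ h0.le
    have h3 : 4 * P ^ 2 * f ((i + 1) * J) ≤ r := by rw [hr]; exact h2.trans h1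
    nlinarith [mul_le_mul_of_nonneg_left h3 hL0.le]
  have hρQ : ρ / P ≤ 1 / 2 := by
    rw [div_le_iff₀ hP0]
    nlinarith [(hdom i hiN.le).2]
  have hT : slope v (4 * P * ρ) ≤ slope v (ρ / P) + η := by
    have := slope_mono hv (hdom (i + 1) hiN).1 hnext hρQ
    linarith
  obtain ⟨p, hp⟩ := flat_point hv hρ0 hP hη hη1 (hdom i hiN.le).2 hT
  set z := y - c with hz
  set F : ℝ := 3 * ρ * (η + 4 / P) + 2 * ((B + 1) * r) ^ 2 / ρ
    + 8 * ((B + 1) * r) * Real.sqrt (η + 4 / P) with hF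
  have hflat : ∀ w : E, ‖w‖ ≤ (B + 1) * r → |v w - v 0 - ⟪p, w⟫| ≤ F := fun w hw => by
    have hwρ : ‖w‖ ≤ ρ := hw.trans (mul_le_mul_of_nonneg_right hL hr0.le)
    refine (hp w hwρ).trans ?_
    have := pow_le_pow_left₀ (norm_nonneg w) hw 2
    rw [hF]
    gcongr
  have hze : ‖z + e‖ ≤ (B + 1) * r := by linarith [norm_add_le z e]
  have hze' : ‖z - e‖ ≤ (B + 1) * r := by linarith [norm_sub_le z e]
  have hz' : ‖z‖ ≤ (B + 1) * r := by linarith
  have a1 := abs_le.1 (hflat _ hze)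
  have a2 := abs_le.1 (hflat _ hze')
  have a3 := abs_le.1 (hflat _ hz')
  rw [inner_add_right] at a1
  rw [inner_sub_right] at a2
  have hsd : sd u y e = sd v z e := by
    rw [hv_def, sd_zoom, hz, one_smul, one_smul, div_one, add_sub_cancel]
  have h4 : 4 * F < ε * r := by
    have := mul_lt_mul_of_pos_right herr hr0
    refine lt_of_eq_of_lt ?_ this
    rw [hF, hρ]; field_simp; ring
  rw [hsd]
  simp only [sd]
  linarith

/-- The constants for a given accuracy. -/
theorem exists_params {ε : ℝ} (hε : 0 < ε) (hε1 : ε ≤ 1) :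
    ∃ (B L P η : ℝ) (N J : ℕ), B = 2 * (25 / ε + 1) ∧ B + 1 ≤ L ∧ 2 ≤ P ∧ 0 ≤ η ∧ η ≤ 1 ∧
      4 * P ^ 2 ≤ 2 ^ J ∧ 1 ≤ (N : ℝ) * η ∧
      12 * L * (η + 4 / P) + 8 * (B + 1) ^ 2 / L + 32 * (B + 1) * Real.sqrt (η + 4 / P)
        < ε / 2 := by
  set B := 2 * (25 / ε + 1) with hB
  have hB0 : 0 ≤ B := by positivity
  set L := 64 * (B + 1) ^ 2 / ε with hL
  have hL0 : 0 < L := by positivity
  have hLB : B + 1 ≤ L := by
    rw [hL, le_div_iff₀ hε]
    nlinarith
  set a := min (min ((ε / (256 * (B + 1))) ^ 2) (ε / (128 * L))) 1 with ha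
  have ha0 : 0 < a := lt_min (lt_min (by positivity) (by positivity)) one_pos
  set P := max 2 (8 / a) with hP
  have hP0 : 0 < P := lt_of_lt_of_le two_pos (le_max_left _ _)
  obtain ⟨N, hN⟩ := exists_nat_ge (2 / a)
  obtain ⟨J, hJ⟩ := pow_unbounded_of_one_lt (4 * P ^ 2) (one_lt_two : (1 : ℝ) < 2)
  have hε₁ : a / 2 + 4 / P ≤ a := by
    have : 8 / a ≤ P := le_max_right _ _
    rw [div_le_iff₀ ha0] at this
    have : 4 / P ≤ a / 2 := by rw [div_le_iff₀ hP0]; linarith
    linarith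
  refine ⟨B, L, P, a / 2, N, J, rfl, hLB, le_max_left _ _, by linarith,
    by linarith [min_le_right (min ((ε / (256 * (B + 1))) ^ 2) (ε / (128 * L))) 1], hJ.le, ?_, ?_⟩
  · rw [div_le_iff₀ ha0] at hN
    linarith
  · have h1 : a ≤ ε / (128 * L) := (min_le_left _ _).trans (min_le_right _ _)
    have h2 : Real.sqrt (a / 2 + 4 / P) ≤ ε / (256 * (B + 1)) := by
      refine (Real.sqrt_le_sqrt (hε₁.trans ((min_le_left _ _).trans (min_le_left _ _)))).trans ?_
      rw [Real.sqrt_sq (by positivity)]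
    have t1 : 12 * L * (a / 2 + 4 / P) ≤ ε / 8 := by
      rw [le_div_iff₀ (by positivity : 0 < 128 * L)] at h1
      nlinarith [mul_le_mul_of_nonneg_left hε₁ hL0.le]
    have t2 : 8 * (B + 1) ^ 2 / L ≤ ε / 8 := by
      rw [hL]; field_simp; ring_nf; norm_num
    have t3 : 32 * (B + 1) * Real.sqrt (a / 2 + 4 / P) ≤ ε / 8 := by
      refine (mul_le_mul_of_nonneg_left h2 (by positivity)).trans (le_of_eq ?_)
      field_simp; ring
    linarith

/-- Second differences at the origin are uniformly small at small scales. -/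
theorem sd_vanish {ε : ℝ} (hε : 0 < ε) :
    ∃ θ : ℝ, 0 < θ ∧ θ ≤ 1 / 4 ∧ ∀ {F : Type} [NormedAddCommGroup F] [InnerProductSpace ℝ F]
      [FiniteDimensional ℝ F] (u : F → ℝ), Good u 1 →
      ∀ h : F, ‖h‖ ≤ θ → sd u 0 h ≤ ε * ‖h‖ := by
  wlog hε1 : ε ≤ 1 generalizing ε
  · obtain ⟨θ, hθ, hθ4, h⟩ := this one_pos le_rfl
    refine ⟨θ, hθ, hθ4, fun u hu e he => (h u hu e he).trans ?_⟩
    exact mul_le_mul_of_nonneg_right (not_le.1 hε1).le (norm_nonneg e)
  obtain ⟨B, L, P, η, N, J, hB, hL, hP, hη, hη1, hJ, hN, herr⟩ := exists_params hε hε1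
  set η' := min (1 / 200) (ε / 2) / 55 ^ (N * J) with hη'
  have hη'0 : 0 < η' := div_pos (lt_min (by norm_num) (by linarith)) (by positivity)
  have hη'e : 55 ^ (N * J) * η' = min (1 / 200) (ε / 2) := by
    rw [hη']; field_simp
  obtain ⟨M, hM⟩ := exists_nat_gt (6 / η')
  have hM0 : 0 < (M : ℝ) := lt_trans (by positivity) hM
  set R₀ := 25 / ε with hR₀
  set C := 4 * (3 * (R₀ + 5)) * M + 32 * P * L + 4 with hC
  have hL0 : 0 < L := by
    have : 0 ≤ B := by rw [hB]; positivity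
    linarith
  have hP0 : 0 < P := by linarith
  have hC0 : 4 ≤ C := by
    have : 0 ≤ 4 * (3 * (R₀ + 5)) * M := by positivity
    have : 0 ≤ 32 * P * L := by positivity
    linarith
  set θ := 1 / (3 ^ M * C) with hθ
  have h3M : (1 : ℝ) ≤ 3 ^ M := one_le_pow₀ (by norm_num)
  have hθ0 : 0 < θ := by positivity
  refine ⟨θ, hθ0, ?_, fun {F} _ _ _ u hu h₀ hh₀ => ?_⟩
  · rw [hθ]
    exact one_div_le_one_div_of_le (by norm_num) (by nlinarith)
  by_contra hcon
  push Not at hcon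
  have hlip : ∀ x h : F, ‖x‖ ≤ 1 / 4 → ‖h‖ ≤ 1 / 4 → sd u x h ≤ 2 * ‖h‖ := by
    intro x h hx hh
    have a1 := hu.lip (x + h) x (by linarith [norm_add_le x h]) (by linarith)
    have a2 := hu.lip (x - h) x (by linarith [norm_sub_le x h]) (by linarith)
    rw [add_sub_cancel_left] at a1
    rw [sub_sub_cancel_left, norm_neg] at a2
    simp only [sd]; linarith
  have hρ : ∀ i ≤ M, θ * 3 ^ i * C ≤ 1 := fun i hi => by
    have h1 : (3 : ℝ) ^ i ≤ 3 ^ M := pow_le_pow_right₀ (by norm_num) hi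
    rw [hθ]
    field_simp
    exact h1
  have hall : ∀ i ≤ M, ∃ x h : F, ‖x‖ ≤ i / (4 * M) ∧ ‖h‖ ≤ θ * 3 ^ i ∧
      (ε + i * (η' / 3)) * ‖h‖ < sd u x h := by
    intro i hi
    induction i with
    | zero => exact ⟨0, h₀, by simp, by simpa using hh₀, by simpa using hcon⟩
    | succ i ih =>
      obtain ⟨x, d, hx, hd, hxd⟩ := ih (by omega)
      by_contra hnext
      push Not at hnext
      have hiM : ((i : ℝ) + 1) / (4 * M) ≤ 1 / 4 := by
        rw [div_le_iff₀ (by positivity)]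
        have : ((i : ℝ) + 1) ≤ M := by exact_mod_cast hi
        linarith
      have hstep : (i : ℝ) / (4 * M) + 1 / (4 * M) = ((i : ℝ) + 1) / (4 * M) := by ring
      have hinv : 0 ≤ 1 / (4 * (M : ℝ)) := by positivity
      have hd0 : 0 < ‖d‖ := by
        rcases eq_or_lt_of_le (norm_nonneg d) with h | h
        · exfalso
          have : d = 0 := norm_eq_zero.1 h.symm
          subst this
          simp [sd] at hxd
          linarith
        · exact h
      have hdC : ‖d‖ * C ≤ 1 := (mul_le_mul_of_nonneg_right hd (by linarith)).trans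
        (hρ i (by omega))
      rw [hC] at hdC
      have p1 : 0 ≤ ‖d‖ * (4 * (3 * (R₀ + 5)) * M) := by positivity
      have p2 : 0 ≤ ‖d‖ * (32 * P * L) := by positivity
      set Z := ε + (i : ℝ) * (η' / 3) with hZ
      have hZε : ε ≤ Z := le_add_of_nonneg_right (by positivity)
      have hZ2 : Z ≤ 2 := by
        have := hlip x d (by linarith) (by linarith)
        exact le_of_mul_le_mul_right (by linarith) hd0
      have hZ0 : 0 < Z := by linarith
      set R := 25 / Z with hR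
      have hRR : R ≤ R₀ := div_le_div_of_nonneg_left (by norm_num) hε hZε
      have hR0 : 0 ≤ R := by positivity
      have hbudget : ‖x‖ + 3 * (R + 5) * ‖d‖ ≤ ((i : ℝ) + 1) / (4 * M) := by
        have h1 : 3 * (R₀ + 5) * ‖d‖ ≤ 1 / (4 * M) := by
          rw [le_div_iff₀ (by positivity)]
          linarith
        have h2 : 3 * (R + 5) * ‖d‖ ≤ 3 * (R₀ + 5) * ‖d‖ := by gcongr
        linarith
      obtain ⟨c, f, hf0, hfs, hxc, hpts⟩ := descent_chain (A := ((i : ℝ) + 1) / (4 * M))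
        (η₀ := η' / 3) (ρ := θ * 3 ^ (i + 1)) hZ0 hZ2 (by rw [hR]; field_simp) hu (by linarith)
        (fun z e hz he => by
          have := hnext z e (by push_cast; exact hz) he
          push_cast at this
          rw [hZ]; linarith) (N * J) η' hη'0 (by linarith)
        (by rw [hη'e]; exact min_le_left _ _) x d hd0 hbudget (by rw [pow_succ]; linarith)
        (by linarith [mul_pos hη'0 hd0])
      have hfpos : ∀ j ≤ N * J, 0 < f j := fun j hj => by
        cases j with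
        | zero => rw [hf0]; exact hd0
        | succ j => exact (hfs j (by omega)).1
      have hc : ‖c‖ ≤ 1 / 2 := by
        have h1 : 2 * (R + 1) * ‖d‖ ≤ 3 * (R + 5) * ‖d‖ := by gcongr <;> linarith
        linarith [norm_sub_norm_le c x, norm_sub_rev c x, norm_nonneg x]
      obtain ⟨j, hj, hflat⟩ := chain_flat (ε := ε / 2) hu hc (by rw [hB]; positivity) hL hP hη
        hη1 hJ hN herr (by rw [hf0]; linarith) hfpos (fun j hj => (hfs j hj).2)
      obtain ⟨y, e, he, hy, hye⟩ := hpts j hj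
      have h1 := hflat y e he (hy.trans (mul_le_mul_of_nonneg_right
        (by rw [hB]; linarith) (hfpos j hj).le))
      rw [he] at hye
      have h2 : (ε / 2) * f j ≤ (Z - 55 ^ (N * J) * η') * f j := by
        refine mul_le_mul_of_nonneg_right ?_ (hfpos j hj).le
        rw [hη'e]
        linarith [min_le_right (1 / 200 : ℝ) (ε / 2)]
      linarith
  obtain ⟨x, d, hx, hd, hxd⟩ := hall M le_rfl
  have hd4 : ‖d‖ ≤ 1 / 4 := by
    have := (mul_le_mul_of_nonneg_right hd (by linarith : 0 ≤ C)).trans (hρ M le_rfl)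
    nlinarith [norm_nonneg d]
  have hx4 : ‖x‖ ≤ 1 / 4 := by
    refine hx.trans (le_of_eq ?_)
    field_simp
  have := hlip x d hx4 hd4
  have h6 : 2 < (M : ℝ) * (η' / 3) := by
    rw [div_lt_iff₀ hη'0] at hM
    linarith
  nlinarith [norm_nonneg d]

end Vale.Agent.P080.Flat
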