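import Vale.Agent.P080.Flat.Prox

/-!
The descent of almost saturated second differences to half the scale, at bounded displacement,
by a strict barrier for the three-point potential (P080).
-/

namespace Vale.Agent.P080.Flat

open Metric Set
open scoped RealInnerProductSpace

set_option linter.unusedSectionVars false

/-- The radial part of the barrier, two steps against the quadratic costs. -/
theorem radial_step {Z η r ρ p n : ℝ} (hη : 0 < η) (hp : p = Z + 6 * η * (3 - r))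
    (hn : (ρ - r) ^ 2 ≤ n) :
    (Z * (ρ - r) + 3 * η * ((3 - r) ^ 2 - (3 - ρ) ^ 2)) - n / (2 * η)
      + (Z * (r - p * η - r) + 3 * η * ((3 - r) ^ 2 - (3 - (r - p * η)) ^ 2))
      + (p * η) ^ 2 / (2 * η) ≤ -(3 * η ^ 3 * p ^ 2) := by
  subst hp
  rw [← sub_nonneg]
  have h : 0 ≤ (ρ - r - (Z + 6 * η * (3 - r)) * η) ^ 2 / (2 * η) + 3 * η * (ρ - r) ^ 2
      + (n - (ρ - r) ^ 2) / (2 * η) :=
    add_nonneg (by positivity) (div_nonneg (by linarith) (by positivity))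
  refine h.trans (le_of_eq ?_)
  field_simp
  ring

/-- The drift of the middle point is absorbed by the quadratic gain. -/
theorem drift_step {Z η R p w X : ℝ} (hη : 0 < η) (hR : 0 < R) (hRZ : Z ^ 2 * R ^ 2 = 625)
    (hp : Z ^ 2 ≤ p ^ 2) (hX : X ≤ 2 * R * w + 32 * η ^ 2) :
    18 * η / R ^ 2 * X < 3 * η ^ 3 * p ^ 2 + w ^ 2 / (4 * η) := by
  have h1 : 18 * η / R ^ 2 * (2 * R * w + 32 * η ^ 2)
      ≤ w ^ 2 / (4 * η) + 1872 * η ^ 3 / R ^ 2 := by
    rw [← sub_nonneg]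
    have h : 0 ≤ (w - 72 * η ^ 2 / R) ^ 2 / (4 * η) := by positivity
    refine h.trans (le_of_eq ?_)
    field_simp
    ring
  have h2 : 1872 * η ^ 3 / R ^ 2 < 3 * η ^ 3 * p ^ 2 := by
    rw [div_lt_iff₀ (by positivity)]
    have h3 : Z ^ 2 * R ^ 2 ≤ p ^ 2 * R ^ 2 := mul_le_mul_of_nonneg_right hp (sq_nonneg R)
    have h4 : 0 < η ^ 3 := by positivity
    have h5 := mul_le_mul_of_nonneg_left h3 h4.le
    rw [hRZ] at h5
    linarith
  have := mul_le_mul_of_nonneg_left hX (by positivity : 0 ≤ 18 * η / R ^ 2)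
  linarith

variable {E : Type*} [NormedAddCommGroup E] [InnerProductSpace ℝ E]

/-- The barrier. -/
noncomputable def barrier (Z η R : ℝ) (x d : E) : ℝ :=
  Z * ‖d‖ + 7 * η - 3 * η * ((3 - ‖d‖) ^ 2 - 1 - 6 * ‖x‖ ^ 2 / R ^ 2)

/-- The barrier at an interior point. -/
theorem barrier_step {Z η R : ℝ} (hη : 0 < η) (hη1 : η ≤ 1 / 200) (hZ : 0 < Z) (hZ2 : Z ≤ 2)
    (hRZ : R * Z = 25) {x d x' e b : E} (hx' : ‖x'‖ ≤ 4 * η) (hb : ‖b‖ ≤ 4 * η)
    (hx : ‖x‖ ≤ R) (hd1 : 1 / 2 < ‖d‖) (hd2 : ‖d‖ < 2) :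
    ∃ c : E, ‖c‖ ≤ 4 * η ∧
      barrier Z η R (x + x') (d + e) - ‖e‖ ^ 2 / (2 * η) + barrier Z η R (x + b) (d + c)
        + ‖c‖ ^ 2 / (2 * η) < 2 * barrier Z η R x d + ‖x' + b‖ ^ 2 / (4 * η) := by
  have hR : 0 < R := by nlinarith
  set r := ‖d‖ with hr
  set p := Z + 6 * η * (3 - r) with hp
  have hp0 : Z ≤ p := by
    have : 0 ≤ 6 * η * (3 - r) := mul_nonneg (by positivity) (by linarith)
    linarith
  have hp4 : p ≤ 4 := by nlinarith
  have hpη : p * η ≤ 4 * η := mul_le_mul_of_nonneg_right hp4 hη.le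
  have hpη0 : 0 ≤ p * η := mul_nonneg (by linarith) hη.le
  set c : E := (-(p * η / r)) • d with hc
  have hr0 : 0 < r := by linarith
  have hcn : ‖c‖ = p * η := by
    rw [hc, norm_smul, Real.norm_eq_abs, abs_neg, abs_of_nonneg (div_nonneg hpη0 hr0.le), ← hr]
    field_simp
  have hdc : ‖d + c‖ = r - p * η := by
    have hfac : d + c = (1 - p * η / r) • d := by rw [hc]; module
    have h0 : 0 ≤ 1 - p * η / r := by
      rw [sub_nonneg, div_le_one hr0]; linarith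
    rw [hfac, norm_smul, Real.norm_of_nonneg h0, ← hr]
    field_simp
  refine ⟨c, by rw [hcn]; exact hpη, ?_⟩
  have hρe : (‖d + e‖ - r) ^ 2 ≤ ‖e‖ ^ 2 := by
    rw [← sq_abs (‖d + e‖ - r)]
    refine pow_le_pow_left₀ (abs_nonneg _) ?_ 2
    have := abs_norm_sub_norm_le (d + e) d
    rwa [add_sub_cancel_left] at this
  have hcross : 2 * ⟪x, x' + b⟫ ≤ 2 * R * ‖x' + b‖ := by
    linarith [real_inner_le_norm x (x' + b), mul_le_mul_of_nonneg_right hx (norm_nonneg (x' + b))]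
  have hX : ‖x + x'‖ ^ 2 + ‖x + b‖ ^ 2 - 2 * ‖x‖ ^ 2 ≤ 2 * R * ‖x' + b‖ + 32 * η ^ 2 := by
    rw [norm_add_sq_real, norm_add_sq_real]
    rw [inner_add_right] at hcross
    linarith [pow_le_pow_left₀ (norm_nonneg x') hx' 2, pow_le_pow_left₀ (norm_nonneg b) hb 2]
  have h1 := radial_step hη hp hρe
  have h2 := drift_step (Z := Z) (p := p) (w := ‖x' + b‖) hη hR
    (by rw [← mul_pow, mul_comm, hRZ]; norm_num) (pow_le_pow_left₀ hZ.le hp0 2) hX
  have e1 : barrier Z η R (x + x') (d + e) + barrier Z η R (x + b) (d + c)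
      - 2 * barrier Z η R x d
      = (Z * (‖d + e‖ - r) + 3 * η * ((3 - r) ^ 2 - (3 - ‖d + e‖) ^ 2))
        + (Z * (r - p * η - r) + 3 * η * ((3 - r) ^ 2 - (3 - (r - p * η)) ^ 2))
        + 18 * η / R ^ 2 * (‖x + x'‖ ^ 2 + ‖x + b‖ ^ 2 - 2 * ‖x‖ ^ 2) := by
    unfold barrier
    rw [hdc, ← hr]
    ring
  rw [hcn]
  linarith

variable [FiniteDimensional ℝ E] {u : E → ℝ} {Q Z η R : ℝ}

/-- On the boundary layers the potential lies below the barrier. -/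
theorem layer_le (hη : 0 < η) (hη1 : η ≤ 1 / 200) (hR : 0 < R)
    (hu : Good u Q) (hQ : R + 5 ≤ Q)
    (hD : ∀ x d : E, ‖x‖ ≤ R + 1 → ‖d‖ ≤ 3 → sd u x d ≤ Z * ‖d‖ + η)
    (hcon : ∀ x d : E, ‖x‖ ≤ R + 1 → 2 / 5 ≤ ‖d‖ → ‖d‖ ≤ 1 / 2 → sd u x d < Z * ‖d‖ - 22 * η)
    {x d : E} (hx : ‖x‖ ≤ R + 4 * η) (hd1 : 2 / 5 ≤ ‖d‖) (hd2 : ‖d‖ ≤ 2 + 4 * η)
    (hcase : ‖d‖ ≤ 1 / 2 ∨ 2 ≤ ‖d‖ ∨ R ≤ ‖x‖) : pot η u x d ≤ barrier Z η R x d := by
  obtain ⟨-, hp⟩ := sd_le_pot hη hu.lip (x := x) (d := d) (by linarith)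
  unfold barrier
  have hsq : 0 ≤ η * (6 * ‖x‖ ^ 2 / R ^ 2) := by positivity
  rcases le_or_gt ‖d‖ (1 / 2) with h | h
  · have h1 := hcon x d (by linarith) hd1 h
    have h2 : (3 - ‖d‖) ^ 2 ≤ (13 / 5) ^ 2 := pow_le_pow_left₀ (by linarith) (by linarith) 2
    linarith [mul_le_mul_of_nonneg_left h2 hη.le]
  · have h1 := hD x d (by linarith) (by linarith)
    rcases hcase with h' | h' | h'
    · linarith
    · have h2 : (3 - ‖d‖) ^ 2 ≤ 1 ^ 2 := pow_le_pow_left₀ (by linarith) (by linarith) 2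
      linarith [mul_le_mul_of_nonneg_left h2 hη.le]
    · have h2 : (3 - ‖d‖) ^ 2 ≤ (5 / 2) ^ 2 := pow_le_pow_left₀ (by linarith) (by linarith) 2
      have h3 : 6 ≤ 6 * ‖x‖ ^ 2 / R ^ 2 := by
        rw [le_div_iff₀ (by positivity)]
        linarith [pow_le_pow_left₀ hR.le h' 2]
      linarith [mul_le_mul_of_nonneg_left h2 hη.le, mul_le_mul_of_nonneg_left h3 hη.le]

/-- The potential minus the barrier is continuous. -/
theorem excess_continuous (hη : 0 < η) (hu : Good u Q) {S : ℝ} (hS : S + 8 * η ≤ Q) :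
    ContinuousOn (fun q : E × E => pot η u q.1 q.2 - barrier Z η R q.1 q.2)
      {q : E × E | ‖q.1‖ + ‖q.2‖ ≤ S} := by
  have hW : LipOne (sc η u) (Q - 4 * η) := sc_lip hη hu.lip
  have hm : LipOne (ic η u) (Q - 4 * η) := ic_lip hη hu.lip
  have hmm : LipOne (ic η (ic η u)) (Q - 4 * η - 4 * η) := ic_lip hη hm
  have hadd : Continuous fun q : E × E => q.1 + q.2 := continuous_fst.add continuous_snd
  have hsub : Continuous fun q : E × E => q.1 - q.2 := continuous_fst.sub continuous_snd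
  have c1 := hW.continuousOn.comp hadd.continuousOn (s := {q : E × E | ‖q.1‖ + ‖q.2‖ ≤ S})
    fun q (hq : ‖q.1‖ + ‖q.2‖ ≤ S) => mem_closedBall_zero_iff.2
      (by linarith [norm_add_le q.1 q.2])
  have c2 := hW.continuousOn.comp hsub.continuousOn (s := {q : E × E | ‖q.1‖ + ‖q.2‖ ≤ S})
    fun q (hq : ‖q.1‖ + ‖q.2‖ ≤ S) => mem_closedBall_zero_iff.2
      (by linarith [norm_sub_le q.1 q.2])
  have c3 := hm.continuousOn.comp (continuous_fst (X := E) (Y := E)).continuousOn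
    (s := {q : E × E | ‖q.1‖ + ‖q.2‖ ≤ S})
    fun q (hq : ‖q.1‖ + ‖q.2‖ ≤ S) => mem_closedBall_zero_iff.2
      (by linarith [norm_nonneg q.2])
  have c4 := hmm.continuousOn.comp (continuous_fst (X := E) (Y := E)).continuousOn
    (s := {q : E × E | ‖q.1‖ + ‖q.2‖ ≤ S})
    fun q (hq : ‖q.1‖ + ‖q.2‖ ≤ S) => mem_closedBall_zero_iff.2
      (by linarith [norm_nonneg q.2])
  have hb : Continuous fun q : E × E => barrier Z η R q.1 q.2 := by
    unfold barrier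
    fun_prop
  have h := (((c1.add c2).sub (c3.const_smul (2 : ℝ))).add ((c3.sub c4).const_smul (2 : ℝ))).sub
    hb.continuousOn
  refine h.congr fun q _ => ?_
  simp [pot]

/-- An almost saturated second difference at scale one produces one at scale about one half,
at bounded displacement. -/
theorem descent_step (hη : 0 < η) (hη1 : η ≤ 1 / 200) (hZ : 0 < Z) (hZ2 : Z ≤ 2)
    (hRZ : R * Z = 25) (hu : Good u Q) (hQ : R + 5 ≤ Q)
    (hD : ∀ x d : E, ‖x‖ ≤ R + 1 → ‖d‖ ≤ 3 → sd u x d ≤ Z * ‖d‖ + η)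
    {d₀ : E} (hd₀ : ‖d₀‖ = 1) (h₀ : Z - η ≤ sd u 0 d₀) :
    ∃ x d : E, ‖x‖ ≤ R + 1 ∧ 2 / 5 ≤ ‖d‖ ∧ ‖d‖ ≤ 1 / 2 ∧ Z * ‖d‖ - 22 * η ≤ sd u x d := by
  by_contra hcon
  push Not at hcon
  have hR : 0 < R := by nlinarith
  set K : Set (E × E) :=
    closedBall (0 : E) R ×ˢ (closedBall (0 : E) 2 \ ball 0 (1 / 2)) with hK
  have hKc : IsCompact K :=
    (isCompact_closedBall _ _).prod ((isCompact_closedBall _ _).diff isOpen_ball)
  have hKmem : ∀ x d : E, (x, d) ∈ K ↔ ‖x‖ ≤ R ∧ ‖d‖ ≤ 2 ∧ 1 / 2 ≤ ‖d‖ := fun x d => by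
    simp [K]
  have hK0 : ((0 : E), d₀) ∈ K := (hKmem _ _).2 (by rw [hd₀, norm_zero]; norm_num; exact hR.le)
  have hcont := (excess_continuous (Z := Z) (R := R) hη hu (S := R + 2) (by linarith)).mono
    (t := K) fun q hq => by
      obtain ⟨a, b, -⟩ := (hKmem q.1 q.2).1 hq
      show ‖q.1‖ + ‖q.2‖ ≤ R + 2
      linarith
  obtain ⟨⟨x, d⟩, hq, hmax⟩ := hKc.exists_isMaxOn ⟨_, hK0⟩ hcont
  obtain ⟨hxR, hdu, hdl⟩ := (hKmem x d).1 hq
  have hmax' := isMaxOn_iff.1 hmax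
  simp only at hmax'
  set m := pot η u x d - barrier Z η R x d with hm_def
  have hm0 : 0 < m := by
    have h1 := hmax' _ hK0
    simp only at h1
    obtain ⟨h2, -⟩ := sd_le_pot hη hu.lip (x := (0 : E)) (d := d₀)
      (by rw [hd₀, norm_zero]; linarith)
    simp only [barrier, hd₀, norm_zero] at h1
    norm_num at h1
    linarith
  have hd1 : 1 / 2 < ‖d‖ := by
    by_contra h
    push Not at h
    linarith [layer_le hη hη1 hR hu hQ hD hcon (x := x) (d := d) (by linarith) (by linarith)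
      (by linarith) (Or.inl h)]
  have hd2 : ‖d‖ < 2 := by
    by_contra h
    push Not at h
    linarith [layer_le hη hη1 hR hu hQ hD hcon (x := x) (d := d) (by linarith) (by linarith)
      (by linarith) (Or.inr (Or.inl h))]
  have hall : ∀ v w : E, ‖v‖ ≤ 4 * η → ‖w‖ ≤ 4 * η →
      pot η u (x + v) (d + w) - barrier Z η R (x + v) (d + w) ≤ m := by
    intro v w hv hw
    have a2 := norm_sub_norm_le d (d + w)
    rw [sub_add_cancel_left, norm_neg] at a2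
    by_cases hin : (x + v, d + w) ∈ K
    · exact hmax' (x + v, d + w) hin
    · refine (sub_nonpos.2 (layer_le hη hη1 hR hu hQ hD hcon ?_ (by linarith) ?_ ?_)).trans hm0.le
      · linarith [norm_add_le x v]
      · linarith [norm_add_le d w]
      · by_contra hne
        push Not at hne
        exact hin ((hKmem _ _).2 ⟨hne.2.2.le, hne.2.1.le, hne.1.le⟩)
  obtain ⟨x', e, b, hx', he, hb, hstep⟩ := pot_step hη hu (x := x) (d := d) (by linarith)
  obtain ⟨c, hc, hbar⟩ := barrier_step (e := e) hη hη1 hZ hZ2 hRZ hx' hb hxR hd1 hd2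
  linarith [hall x' e hx' he, hall b c hb hc, hstep c hc]

end Vale.Agent.P080.Flat
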