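import Mathlib

/-!
Quadratic sup- and inf-convolutions at a small time `s` of a function with Lipschitz constant
one that satisfies comparison with cones, and the three-point inequality for them (P080).
-/

namespace Vale.Agent.P080.Flat

open Metric Set
open scoped RealInnerProductSpace

set_option linter.unusedSectionVars false

variable {E : Type*} [NormedAddCommGroup E] [InnerProductSpace ℝ E]

/-- Lipschitz with constant one on the centred ball of radius `Q`. -/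
def LipOne (f : E → ℝ) (Q : ℝ) : Prop :=
  ∀ x y, ‖x‖ ≤ Q → ‖y‖ ≤ Q → f x - f y ≤ ‖x - y‖

/-- On every ball inside the centred ball of radius `Q` the function lies below the cone through
its maximum on that ball. -/
def UpCone (f : E → ℝ) (Q : ℝ) : Prop :=
  ∀ x b, 0 ≤ b → ‖x‖ + b ≤ Q → ∃ z, ‖z - x‖ ≤ b ∧ f x ≤ f z ∧
    ∀ y, ‖y - x‖ ≤ b → f y ≤ f z ∧ b * (f y - f x) ≤ ‖y - x‖ * (f z - f x)

/-- Lipschitz constant one and comparison with cones from both sides. -/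
structure Good (u : E → ℝ) (Q : ℝ) : Prop where
  lip : LipOne u Q
  up : UpCone u Q
  down : UpCone (fun y => -u y) Q

theorem LipOne.neg {f : E → ℝ} {Q : ℝ} (hf : LipOne f Q) : LipOne (fun y => -f y) Q :=
  fun x y hx hy => by have := hf y x hy hx; rw [norm_sub_rev] at this; linarith

theorem LipOne.mono {f : E → ℝ} {Q Q' : ℝ} (hf : LipOne f Q) (h : Q' ≤ Q) : LipOne f Q' :=
  fun x y hx hy => hf x y (hx.trans h) (hy.trans h)

theorem LipOne.continuousOn {f : E → ℝ} {Q : ℝ} (hf : LipOne f Q) :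
    ContinuousOn f (closedBall 0 Q) := by
  refine (LipschitzOnWith.of_le_add_mul 1 fun x hx y hy => ?_).continuousOn
  have := hf x y (mem_closedBall_zero_iff.1 hx) (mem_closedBall_zero_iff.1 hy)
  rw [NNReal.coe_one, one_mul, dist_eq_norm]
  linarith

theorem Good.neg {u : E → ℝ} {Q : ℝ} (h : Good u Q) : Good (fun y => -u y) Q :=
  ⟨h.lip.neg, h.down, by simpa using h.up⟩

/-- Supremal convolution with `-‖h‖²/(4s)`, over offsets of length at most `4s`. -/
noncomputable def sc (s : ℝ) (f : E → ℝ) (x : E) : ℝ :=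
  sSup ((fun h => f (x + h) - ‖h‖ ^ 2 / (4 * s)) '' closedBall 0 (4 * s))

/-- Infimal convolution with `‖h‖²/(4s)`. -/
noncomputable def ic (s : ℝ) (f : E → ℝ) (x : E) : ℝ :=
  -sc s (fun y => -f y) x

theorem add_mem {x h : E} {b Q : ℝ} (hh : ‖h‖ ≤ b) (hx : ‖x‖ + b ≤ Q) : ‖x + h‖ ≤ Q := by
  linarith [norm_add_le x h]

variable [FiniteDimensional ℝ E] {f u : E → ℝ} {s Q : ℝ} {x : E}

theorem sc_bdd (hs : 0 < s) (hf : LipOne f Q) (hx : ‖x‖ + 4 * s ≤ Q) :
    BddAbove ((fun h => f (x + h) - ‖h‖ ^ 2 / (4 * s)) '' closedBall 0 (4 * s)) := by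
  refine ⟨f x + 4 * s, ?_⟩
  rintro _ ⟨h, hh, rfl⟩
  rw [mem_closedBall_zero_iff] at hh
  have := hf (x + h) x (add_mem hh hx) (by linarith)
  rw [add_sub_cancel_left] at this
  have : 0 ≤ ‖h‖ ^ 2 / (4 * s) := by positivity
  linarith

theorem le_sc (hs : 0 < s) (hf : LipOne f Q) (hx : ‖x‖ + 4 * s ≤ Q) {h : E} (hh : ‖h‖ ≤ 4 * s) :
    f (x + h) - ‖h‖ ^ 2 / (4 * s) ≤ sc s f x :=
  le_csSup (sc_bdd hs hf hx) ⟨h, mem_closedBall_zero_iff.2 hh, rfl⟩

theorem exists_sc (hs : 0 < s) (hf : LipOne f Q) (hx : ‖x‖ + 4 * s ≤ Q) :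
    ∃ h, ‖h‖ ≤ 4 * s ∧ sc s f x = f (x + h) - ‖h‖ ^ 2 / (4 * s) := by
  have hc : ContinuousOn (fun h => f (x + h) - ‖h‖ ^ 2 / (4 * s)) (closedBall 0 (4 * s)) := by
    refine (hf.continuousOn.comp (by fun_prop) fun h hh => ?_).sub (by fun_prop)
    rw [mem_closedBall_zero_iff] at hh ⊢
    exact add_mem hh hx
  obtain ⟨h, hh, he⟩ := ((isCompact_closedBall (0 : E) (4 * s)).exists_sSup_image_eq
    ⟨0, mem_closedBall_self (by linarith)⟩ hc)
  exact ⟨h, mem_closedBall_zero_iff.1 hh, he⟩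

theorem self_le_sc (hs : 0 < s) (hf : LipOne f Q) (hx : ‖x‖ + 4 * s ≤ Q) : f x ≤ sc s f x := by
  simpa using le_sc hs hf hx (h := 0) (by simp; linarith)

theorem sc_le (hs : 0 < s) (hf : LipOne f Q) (hx : ‖x‖ + 4 * s ≤ Q) : sc s f x ≤ f x + s := by
  obtain ⟨h, hh, he⟩ := exists_sc hs hf hx
  have h1 := hf (x + h) x (add_mem hh hx) (by linarith)
  rw [add_sub_cancel_left] at h1
  have : ‖h‖ ≤ ‖h‖ ^ 2 / (4 * s) + s := by
    rw [div_add' _ _ _ (by positivity), le_div_iff₀ (by positivity)]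
    nlinarith [sq_nonneg (‖h‖ - 2 * s)]
  linarith

theorem sc_lip (hs : 0 < s) (hf : LipOne f Q) : LipOne (sc s f) (Q - 4 * s) := by
  intro a b ha hb
  obtain ⟨h, hh, he⟩ := exists_sc hs hf (x := a) (by linarith)
  have h1 := le_sc hs hf (x := b) (by linarith) hh
  have h2 := hf (a + h) (b + h) (add_mem hh (by linarith)) (add_mem hh (by linarith))
  rw [add_sub_add_right_eq_sub] at h2
  linarith

theorem ic_lip (hs : 0 < s) (hf : LipOne f Q) : LipOne (ic s f) (Q - 4 * s) :=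
  (sc_lip hs hf.neg).neg

theorem ic_le (hs : 0 < s) (hf : LipOne f Q) (hx : ‖x‖ + 4 * s ≤ Q) {h : E} (hh : ‖h‖ ≤ 4 * s) :
    ic s f x ≤ f (x + h) + ‖h‖ ^ 2 / (4 * s) := by
  have := le_sc hs hf.neg hx hh
  simp only [ic]
  linarith

theorem exists_ic (hs : 0 < s) (hf : LipOne f Q) (hx : ‖x‖ + 4 * s ≤ Q) :
    ∃ h, ‖h‖ ≤ 4 * s ∧ ic s f x = f (x + h) + ‖h‖ ^ 2 / (4 * s) := by
  obtain ⟨h, hh, he⟩ := exists_sc hs hf.neg hx
  exact ⟨h, hh, by simp only [ic]; linarith⟩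

theorem ic_le_self (hs : 0 < s) (hf : LipOne f Q) (hx : ‖x‖ + 4 * s ≤ Q) : ic s f x ≤ f x := by
  have := self_le_sc hs hf.neg hx
  simp only [ic]
  linarith

/-- The bound defining the infimal convolution holds for all offsets inside the domain. -/
theorem ic_le' (hs : 0 < s) (hf : LipOne f Q) (hx : ‖x‖ + 4 * s ≤ Q) {h : E} (hh : ‖x + h‖ ≤ Q) :
    ic s f x ≤ f (x + h) + ‖h‖ ^ 2 / (4 * s) := by
  rcases le_or_gt ‖h‖ (4 * s) with h4 | h4
  · exact ic_le hs hf hx h4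
  · have h1 := hf x (x + h) (by linarith) hh
    rw [norm_sub_rev, add_sub_cancel_left] at h1
    have h2 : ‖h‖ ≤ ‖h‖ ^ 2 / (4 * s) := by
      rw [le_div_iff₀ (by positivity)]
      nlinarith [norm_nonneg h]
    linarith [ic_le_self hs hf hx]

theorem le_ic (hs : 0 < s) (hf : LipOne f Q) (hx : ‖x‖ + 4 * s ≤ Q) : f x ≤ ic s f x + s := by
  have := sc_le hs hf.neg hx
  simp only [ic]
  linarith

theorem ic_neg (s : ℝ) (f : E → ℝ) (x : E) : ic s (fun y => -f y) x = -sc s f x := by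
  simp [ic]

/-- A supremal convolution of a subsolution is a discrete subsolution. -/
theorem sc_sub (hs : 0 < s) (hu : LipOne u Q) (hup : UpCone u Q) (hx : ‖x‖ + 8 * s ≤ Q) :
    2 * sc s u x ≤ sc s (sc s u) x + ic s (sc s u) x := by
  have hW : LipOne (sc s u) (Q - 4 * s) := sc_lip hs hu
  obtain ⟨h, hh, he⟩ := exists_sc hs hu (x := x) (by linarith)
  obtain ⟨z, hz, hxz, hzy⟩ := hup x (2 * ‖h‖) (by positivity) (by linarith)
  have hlow : u x ≤ ic s (sc s u) x := by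
    obtain ⟨g, hg, hge⟩ := exists_ic hs hW (x := x) (by linarith)
    have h1 := le_sc hs hu (x := x + g) (h := -g)
      (by linarith [norm_add_le x g]) (by rw [norm_neg]; exact hg)
    rw [add_neg_cancel_right, norm_neg] at h1
    linarith
  have hhalf : ‖(1 / 2 : ℝ) • (z - x)‖ ≤ ‖h‖ := by
    rw [norm_smul, Real.norm_of_nonneg (by norm_num)]
    linarith
  set k := (1 / 2 : ℝ) • (z - x) with hk
  have hkk : x + k + k = z := by rw [hk]; module
  have h1 := le_sc hs hu (x := x + k) (h := k) (by linarith [norm_add_le x k]) (by linarith)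
  have h2 := le_sc hs hW (x := x) (h := k) (by linarith) (by linarith)
  rw [hkk] at h1
  have hsq : ‖k‖ ^ 2 / (4 * s) ≤ ‖h‖ ^ 2 / (4 * s) := by gcongr
  have h3 : 2 * (u (x + h) - u x) ≤ u z - u x := by
    obtain ⟨-, h4⟩ := hzy (x + h) (by rw [add_sub_cancel_left]; linarith [norm_nonneg h])
    rw [add_sub_cancel_left] at h4
    rcases eq_or_lt_of_le (norm_nonneg h) with h0 | h0
    · rw [norm_eq_zero.1 h0.symm, add_zero]; linarith
    · have h5 : ‖h‖ * (2 * (u (x + h) - u x)) ≤ ‖h‖ * (u z - u x) := by linarith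
      exact le_of_mul_le_mul_left h5 h0
  linarith

/-- An infimal convolution of a supersolution is a discrete supersolution. -/
theorem ic_super (hs : 0 < s) (hu : LipOne u Q) (hdn : UpCone (fun y => -u y) Q)
    (hx : ‖x‖ + 8 * s ≤ Q) :
    sc s (ic s u) x + ic s (ic s u) x ≤ 2 * ic s u x := by
  have h := sc_sub hs hu.neg hdn hx
  have e1 : sc s (fun y => -u y) = fun y => -ic s u y := by funext y; simp [ic]
  rw [e1, ic_neg] at h
  have e2 : sc s (fun y => -ic s u y) x = -ic s (ic s u) x := by simp [ic]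
  rw [e2] at h
  linarith

/-- The three-point potential. -/
noncomputable def pot (s : ℝ) (u : E → ℝ) (x d : E) : ℝ :=
  sc s u (x + d) + sc s u (x - d) - 2 * ic s u x + 2 * (ic s u x - ic s (ic s u) x)

/-- The second difference. -/
def sd (u : E → ℝ) (x d : E) : ℝ := u (x + d) + u (x - d) - 2 * u x

theorem sd_le_pot (hs : 0 < s) (hu : LipOne u Q) {d : E} (hx : ‖x‖ + ‖d‖ + 8 * s ≤ Q) :
    sd u x d ≤ pot s u x d ∧ pot s u x d ≤ sd u x d + 6 * s := by
  have := norm_nonneg d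
  have h1 : ‖x + d‖ + 4 * s ≤ Q := by linarith [norm_add_le x d]
  have h2 : ‖x - d‖ + 4 * s ≤ Q := by linarith [norm_sub_le x d]
  have hm : LipOne (ic s u) (Q - 4 * s) := ic_lip hs hu
  simp only [pot, sd]
  constructor
  · linarith [self_le_sc hs hu h1, self_le_sc hs hu h2, ic_le_self hs hu (x := x) (by linarith),
      ic_le_self hs hm (x := x) (by linarith)]
  · linarith [sc_le hs hu h1, sc_le hs hu h2, le_ic hs hu (x := x) (by linarith),
      le_ic hs hm (x := x) (by linarith)]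

/-- The three-point inequality. -/
theorem pot_step (hs : 0 < s) (hu : Good u Q) {d : E} (hx : ‖x‖ + ‖d‖ + 16 * s ≤ Q) :
    ∃ x' e b : E, ‖x'‖ ≤ 4 * s ∧ ‖e‖ ≤ 4 * s ∧ ‖b‖ ≤ 4 * s ∧ ∀ c : E, ‖c‖ ≤ 4 * s →
      2 * pot s u x d + ‖x' + b‖ ^ 2 / (4 * s) ≤ pot s u (x + x') (d + e) - ‖e‖ ^ 2 / (2 * s)
        + pot s u (x + b) (d + c) + ‖c‖ ^ 2 / (2 * s) := by
  have hW : LipOne (sc s u) (Q - 4 * s) := sc_lip hs hu.lip
  have hm : LipOne (ic s u) (Q - 4 * s) := ic_lip hs hu.lip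
  have := norm_nonneg d
  have hp : ‖x + d‖ + 12 * s ≤ Q := by linarith [norm_add_le x d]
  have hn : ‖x - d‖ + 12 * s ≤ Q := by linarith [norm_sub_le x d]
  obtain ⟨a₁, ha₁, e₁⟩ := exists_sc hs hW (x := x + d) (by linarith)
  obtain ⟨a₃, ha₃, e₃⟩ := exists_sc hs hW (x := x - d) (by linarith)
  obtain ⟨b, hb, eb⟩ := exists_ic hs hm (x := x) (by linarith)
  set x' := (1 / 2 : ℝ) • (a₁ + a₃) with hx'def
  set e := (1 / 2 : ℝ) • (a₁ - a₃) with hedef
  have hx' : ‖x'‖ ≤ 4 * s := by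
    rw [hx'def, norm_smul, Real.norm_of_nonneg (by norm_num)]; linarith [norm_add_le a₁ a₃]
  have he : ‖e‖ ≤ 4 * s := by
    rw [hedef, norm_smul, Real.norm_of_nonneg (by norm_num)]; linarith [norm_sub_le a₁ a₃]
  refine ⟨x', e, b, hx', he, hb, fun c hc => ?_⟩
  have hz : ‖x + x'‖ + 12 * s ≤ Q := by linarith [norm_add_le x x']
  have hy : ‖x + b‖ + 12 * s ≤ Q := by linarith [norm_add_le x b]
  -- the endpoints
  have hs1 := sc_sub hs hu.lip hu.up (x := x + d) (by linarith)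
  have hs3 := sc_sub hs hu.lip hu.up (x := x - d) (by linarith)
  have hi1 := ic_le' hs hW (x := x + d) (h := b + c) (by linarith)
    (by linarith [norm_add_le (x + d) (b + c), norm_add_le b c])
  have hi3 := ic_le' hs hW (x := x - d) (h := b - c) (by linarith)
    (by linarith [norm_add_le (x - d) (b - c), norm_sub_le b c])
  -- the middle
  have hsup := ic_super hs hu.lip hu.down (x := x) (by linarith)
  have hsupb := ic_super hs hu.lip hu.down (x := x + b) (by linarith)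
  have hsig := le_sc hs hm (x := x) (h := x') (by linarith) hx'
  set w := (1 / 2 : ℝ) • (x' + b) with hw
  have hwx : ‖w - x'‖ ≤ 4 * s := by
    rw [show w - x' = (1 / 2 : ℝ) • (b - x') by rw [hw]; module, norm_smul,
      Real.norm_of_nonneg (by norm_num)]
    linarith [norm_sub_le b x']
  have hwb : ‖w - b‖ ≤ 4 * s := by
    rw [show w - b = (1 / 2 : ℝ) • (x' - b) by rw [hw]; module, norm_smul,
      Real.norm_of_nonneg (by norm_num)]
    linarith [norm_sub_le x' b]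
  have hB1 := ic_le hs hm (x := x + x') (h := w - x') (by linarith) hwx
  have hA2 := le_sc hs hm (x := x + b) (h := w - b) (by linarith) hwb
  rw [show x + x' + (w - x') = x + w by abel] at hB1
  rw [show x + b + (w - b) = x + w by abel] at hA2
  rw [show x + d + a₁ = x + x' + (d + e) by rw [hx'def, hedef]; module] at e₁
  rw [show x - d + a₃ = x + x' - (d + e) by rw [hx'def, hedef]; module] at e₃
  rw [show x + d + (b + c) = x + b + (d + c) by abel] at hi1
  rw [show x - d + (b - c) = x + b - (d + c) by abel] at hi3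
  have q1 : ‖a₁‖ ^ 2 + ‖a₃‖ ^ 2 = 2 * ‖x'‖ ^ 2 + 2 * ‖e‖ ^ 2 := by
    rw [show a₁ = x' + e by rw [hx'def, hedef]; module,
      show a₃ = x' - e by rw [hx'def, hedef]; module, norm_add_sq_real, norm_sub_sq_real]
    ring
  have q2 : ‖b + c‖ ^ 2 + ‖b - c‖ ^ 2 = 2 * ‖b‖ ^ 2 + 2 * ‖c‖ ^ 2 := by
    rw [norm_add_sq_real, norm_sub_sq_real]; ring
  have q3 : ‖w - x'‖ ^ 2 + ‖w - b‖ ^ 2 + ‖x' + b‖ ^ 2 / 2 = ‖x'‖ ^ 2 + ‖b‖ ^ 2 := by
    rw [show w - x' = (1 / 2 : ℝ) • (b - x') by rw [hw]; module,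
      show w - b = (1 / 2 : ℝ) • (x' - b) by rw [hw]; module]
    simp only [norm_smul, mul_pow, norm_add_sq_real, norm_sub_sq_real, real_inner_comm x' b,
      Real.norm_eq_abs, sq_abs]
    ring
  have r1 : ‖a₁‖ ^ 2 / (4 * s) + ‖a₃‖ ^ 2 / (4 * s) =
      2 * (‖x'‖ ^ 2 / (4 * s)) + ‖e‖ ^ 2 / (2 * s) := by
    rw [← add_div, q1]; field_simp; ring
  have r2 : ‖b + c‖ ^ 2 / (4 * s) + ‖b - c‖ ^ 2 / (4 * s) =
      2 * (‖b‖ ^ 2 / (4 * s)) + ‖c‖ ^ 2 / (2 * s) := by
    rw [← add_div, q2]; field_simp; ring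
  have r3 : ‖w - x'‖ ^ 2 / (4 * s) + ‖w - b‖ ^ 2 / (4 * s) + (‖x' + b‖ ^ 2 / (4 * s)) / 2 =
      ‖x'‖ ^ 2 / (4 * s) + ‖b‖ ^ 2 / (4 * s) := by
    linear_combination (1 / (4 * s)) * q3
  simp only [pot]
  linarith

end Vale.Agent.P080.Flat
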